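import Crest.Agent.N218.Sk.Mid

/-! Row 218 (helper40): it suffices to evaluate the orbit loop of saturated data. -/

set_option autoImplicit false
open Set

noncomputable section

namespace Crest.Agent.N218.Sk
open Pm

/-- the data only see the ranges of the projections -/
structure Sat {X E₁ E₂ : Type} [NormedAddCommGroup E₁] [InnerProductSpace ℂ E₁]
    [NormedAddCommGroup E₂] [InnerProductSpace ℂ E₂] (D : Data X E₁ E₂) : Prop where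
  C0 : ∀ x, D.C x = 0
  u : ∀ x z, D.π₁ x (D.u (x, z)) = D.u (x, z)
  ov : ∀ x y, (x, y) ∈ D.Ov ↔ (x, D.π₁ x y) ∈ D.Ov
  v : ∀ x y, D.v (x, D.π₁ x y) = D.v (x, y)
  o₁ : ∀ x s y, ((x, s), y) ∈ D.O₁ ↔ ((x, s), D.π₁ x y) ∈ D.O₁
  h₁ : ∀ x s y, D.h₁ ((x, s), D.π₁ x y) = D.h₁ ((x, s), y) ∧
    D.π₁ x (D.h₁ ((x, s), y)) = D.h₁ ((x, s), y)

/-- saturation -/
def SAT : Prop :=
  ∀ (X : Type) [TopologicalSpace X] [CompactSpace X] [T2Space X] (T : Th X QQ) (n₁ n₂ : ℕ)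
    (D : Data X (Cn n₁) (Cn n₂)) (c κ R₀ M : ℝ) (k : ℕ) (δ : ℝ), D.Ok c κ R₀ M → 16 ≤ k → 0 < δ →
    ((D.Orb k).F (tau δ)).Ok → ∃ (D' : Data X (Cn n₁) (Cn n₂)) (c' κ' R₀' M' : ℝ),
      D'.Ok c' κ' R₀' M' ∧ Sat D' ∧ D'.π₁ = D.π₁ ∧ D'.π₂ = D.π₂ ∧ ((D'.Orb k).F (tau δ)).Ok ∧
      T.an k (sp (Cn n₁ × Cn n₂)) ((D'.Orb k).F (tau δ)) =
        T.an k (sp (Cn n₁ × Cn n₂)) ((D.Orb k).F (tau δ))


theorem val_pcd (h : SAT) {T : Th X22 QQ} {k : ℕ} (hk : 16 ≤ k) {a : QQ}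
    (v : Val T k (fun D => Pcd D ∧ Sat D) a) : Val T k Pcd a := fun n₁ n₂ D c κ R₀ M δ o q p u => by
  obtain ⟨D', c', κ', R', M', o', s, e₁, e₂, u', e⟩ := h _ T n₁ n₂ D c κ R₀ M k δ o hk p u
  rw [← e]
  exact v n₁ n₂ D' c' κ' R' M' δ o' ⟨by unfold Pcd; rw [e₁, e₂]; exact q, s⟩ p u'

end Crest.Agent.N218.Sk
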