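import Crest.Agent.N218.C.Defs
import Crest.Agent.N218.C.Lya
import Crest.Agent.N218.Sk.Ec1
import Crest.Agent.N218.Sk.Mid

-- ▼ part N218/C/Per
section

/-! Row 218, block (C) (helper17): periodic orbits are fixed points. -/

set_option autoImplicit false
open Set Metric

namespace Crest.Agent.N218.C

/-- a uniform margin between the levels `w / 2` and `w` -/
theorem Ret.margin {ρ : X × Y → ℝ} {r : X × Y → Y} {w R : ℝ} (h : Ret ρ r w R) :
    ∃ δ > 0, ∀ x y x' y', ‖x‖ = 1 → ρ (x, y) ≤ w / 2 → ‖x' - x‖ < δ → ‖y' - y‖ < δ →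
      ρ (x', y') < w := by
  have w0 := h.w0
  have k : IsCompact ((sphere (0 : X) 1 ×ˢ closedBall (0 : Y) R) ∩ {p | ρ p ≤ w / 2}) :=
    ((isCompact_sphere _ _).prod (isCompact_closedBall _ _)).inter_right
      (isClosed_le h.ρc continuous_const)
  obtain ⟨δ, d0, hd⟩ := k.exists_thickening_subset_open (t := {p | ρ p < w})
    (isOpen_lt h.ρc continuous_const) fun p hp => lt_of_le_of_lt (b := w / 2) hp.2 (by linarith)
  refine ⟨δ, d0, fun x y x' y' hx hy a b => hd (mem_thickening_iff.2 ⟨(x, y), ⟨⟨by simpa, ?_⟩, hy⟩, ?_⟩)⟩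
  · simpa using (h.bl x y hx (by linarith)).le
  · rw [Prod.dist_eq, dist_eq_norm, dist_eq_norm]; exact max_lt a b

theorem per : PER := by
  intro ρ r w R h C
  obtain ⟨d, d0, hd⟩ := h.margin
  have w0 := h.w0
  have c0 : 0 < |C| + 1 := by positivity
  have c1 : C < |C| + 1 := by linarith [le_abs_self C]
  set δ := d / (2 * (|C| + 1)) with hδ
  have δ0 : 0 < δ := by positivity
  have δ1 : (|C| + 1) * δ < d := by rw [hδ]; field_simp; linarith
  refine ⟨min (1 / (|C| + 1)) (δ ^ 2 / (2 * (|C| + 1))), by positivity, ?_⟩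
  intro ε e0 e1 Z _ _ _ ξ g gr o I _ σ p hp i
  have e2 : ε * (|C| + 1) ≤ 1 := (le_div_iff₀ c0).1 (e1.trans (min_le_left _ _))
  have e3 : ε * (2 * (|C| + 1)) ≤ δ ^ 2 :=
    (le_div_iff₀ (by positivity)).1 (e1.trans (min_le_right _ _))
  have hD : ∀ z : Fb Z, ρ (ξ (Rt r ξ z).snd, (Rt r ξ z).fst) ≤ w / 2 := fun z => h.half _ _ (o.un _)
  have dec : ∀ z : Fb Z, ρ (ξ z.snd, z.fst) ≤ w / 2 → 0 < ρ (ξ z.snd, z.fst) →
      ρ (ξ (Rt r ξ z).snd, (Rt r ξ z).fst) < ρ (ξ z.snd, z.fst) := fun z a b =>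
    h.dec (ξ z.snd) z.fst (o.un _) b (by linarith)
  obtain ⟨k1, k2, k3⟩ := lyap σ (g := g) (ρ := fun z : Fb Z => ρ (ξ z.snd, z.fst))
    (E := fun z => z - ε • gr z) (R := Rt r ξ) (D := {z | ρ (ξ z.snd, z.fst) ≤ w / 2})
    (κ := 1 / (2 * ε)) (δ := δ) (o := C) (by positivity) δ0.le
    (by rw [one_div, inv_mul_eq_div, lt_div_iff₀ (by positivity)]; nlinarith) hD
    (fun z _ => desc_grad o.gd o.lg e0 (by nlinarith) z) (fun z hz n => by
      refine o.mono _ (hd _ _ _ _ (o.un _) hz ((o.lx _ _).trans_lt ?_) ?_).le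
      · have := (WithLp.norm_snd_le (p := 2) (x := z - ε • gr z - z)).trans n
        exact (mul_le_mul c1.le this (norm_nonneg _) c0.le).trans_lt δ1
      · have := (WithLp.norm_fst_le (p := 2) (x := z - ε • gr z - z)).trans n
        exact this.trans_lt (by nlinarith [abs_nonneg C]))
    (fun z _ => o.big _) (fun z hz _ => (le_or_gt (ρ (ξ z.snd, z.fst)) 0).imp (fun c => by
      rw [Rt, h.fix _ _ (o.un _) c]; rfl) (dec z hz)) hp i
  refine ⟨k3, (smul_eq_zero.1 (sub_eq_self.1 k1)).resolve_left e0.ne', not_lt.1 fun c => ?_⟩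
  have := dec (p i) (k2 ▸ hD (p i)) c
  rw [k2] at this
  exact lt_irrefl _ this

end Crest.Agent.N218.C
end

-- ▼ part N218/C/Lip
section

/-! Row 218, block (C) (helper72): `LIP`. -/

set_option autoImplicit false
open scoped ContDiff Topology
open Set

noncomputable section

namespace Crest.Agent.N218.C

/-- the retraction is Lipschitz close to the projection near the region where it is the identity -/
theorem Ret.lip {ρ : X × Y → ℝ} {r : X × Y → Y} {w R : ℝ} (h : Ret ρ r w R) {η : ℝ} (hη : 0 < η) :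
    ∃ δ > 0, ∀ u : X × Y, ‖u.1‖ = 1 → ρ u ≤ 0 → ∀ a b : X × Y, ‖a.1‖ = 1 → ‖b.1‖ = 1 →
      ‖a - u‖ < δ → ‖b - u‖ < δ → ‖(r a - a.2) - (r b - b.2)‖ ≤ η * ‖a - b‖ := by
  obtain ⟨f, hf⟩ : ∃ f : X × Y → Y, f = fun u => r (‖u.1‖⁻¹ • u.1, u.2) - u.2 := ⟨_, rfl⟩
  have n : ∀ u : X × Y, u.1 ≠ 0 → ContDiffAt ℝ ∞ (fun u : X × Y => (‖u.1‖⁻¹ • u.1, u.2)) u :=
    fun u k => (((contDiffAt_fst.norm ℝ k).inv (norm_ne_zero_iff.2 k)).smul contDiffAt_fst).prodMk
      contDiffAt_snd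
  have s : ∀ u : X × Y, u.1 ≠ 0 → ContDiffAt ℝ ∞ f u := fun u k =>
    hf ▸ (h.rs.contDiffAt.comp u (n u k)).sub contDiffAt_snd
  have c : ∀ u : X × Y, u.1 ≠ 0 → ContinuousAt (fderiv ℝ f) u := fun u k =>
    ((s u k).fderiv_right (m := 0) (by simp)).continuousAt
  have o : IsOpen {u : X × Y | u.1 ≠ 0} := isOpen_ne.preimage continuous_fst
  have nz : ∀ x : X, ‖x‖ = 1 → x ≠ 0 := fun x k e => by simp [e] at k
  have z1 : ∀ x y, ‖x‖ = 1 → ρ (x, y) < 0 → fderiv ℝ f (x, y) = 0 := fun x y k m => by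
    have : f =ᶠ[𝓝 (x, y)] fun _ => 0 := by
      have := (h.ρc.continuousAt.comp (n (x, y) (nz x k)).continuousAt).eventually_lt
        continuousAt_const (show _ < (0 : ℝ) by simpa [k] using m)
      filter_upwards [this, o.mem_nhds (nz x k)] with u a b
      rw [hf]
      exact sub_eq_zero.2 (h.fix _ _ (norm_smul_inv_norm b) a.le)
    rw [this.fderiv_eq, fderiv_fun_const]; rfl
  have z2 : ∀ x y, ‖x‖ = 1 → ρ (x, y) ≤ 0 → fderiv ℝ f (x, y) = 0 := fun x y k m => by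
    have : Continuous fun y => fderiv ℝ f (x, y) := continuous_iff_continuousAt.2 fun y =>
      (c (x, y) (nz x k)).comp (continuous_const.prodMk continuous_id).continuousAt
    exact closure_minimal (fun y' m' => z1 x y' k m') (isClosed_eq this continuous_const)
      (h.cl x y k m)
  have K : IsCompact {u : X × Y | ‖u.1‖ = 1 ∧ ρ u ≤ 0} := by
    refine ((isCompact_sphere (0 : X) 1).prod (isCompact_closedBall (0 : Y) R)).of_isClosed_subset
      ((isClosed_eq continuous_fst.norm continuous_const).inter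
        (isClosed_le h.ρc continuous_const)) fun u k => ⟨by simpa using k.1, ?_⟩
    simpa using (h.bl u.1 u.2 k.1 (k.2.trans h.w0.le)).le
  have O : IsOpen ({u : X × Y | u.1 ≠ 0} ∩ fderiv ℝ f ⁻¹' Metric.ball 0 η) :=
    ContinuousOn.isOpen_inter_preimage (fun u k => (c u k).continuousWithinAt) o Metric.isOpen_ball
  obtain ⟨δ, d0, d1⟩ := K.exists_thickening_subset_open O fun u k =>
    ⟨nz _ k.1, by simpa [z2 u.1 u.2 k.1 k.2] using hη⟩
  refine ⟨δ, d0, fun u k m a b ha hb da db => ?_⟩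
  have B := (Metric.ball_subset_thickening (show u ∈ {u : X × Y | ‖u.1‖ = 1 ∧ ρ u ≤ 0} from ⟨k, m⟩)
    δ).trans d1
  have := (convex_ball u δ).norm_image_sub_le_of_norm_fderiv_le (f := f) (𝕜 := ℝ)
    (fun v hv => (s v (B hv).1).differentiableAt (by simp))
    (fun v hv => (mem_ball_zero_iff.1 (B hv).2).le) (mem_ball_iff_norm.2 db) (mem_ball_iff_norm.2 da)
  simpa [hf, ha, hb] using this

theorem lip : LIP := by
  intro ρ r w R h C η hη
  obtain ⟨c, hc, c1⟩ : ∃ c : ℝ, C ≤ c ∧ 1 ≤ c := ⟨_, le_max_left _ 1, le_max_right _ _⟩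
  obtain ⟨δ, d0, hδ⟩ := h.lip (η := η / (4 * c)) (by positivity)
  refine ⟨min 1 (η / 2) / c, by positivity, δ / (3 * c), by positivity,
    fun ε e0 e1 Z _ _ _ ξ g gr o p hp mp a b da db => ?_⟩
  rw [le_div_iff₀ (by positivity), le_min_iff] at e1
  have l1 : ∀ a b : Fb Z, ‖ε • gr a - ε • gr b‖ ≤ ε * c * ‖a - b‖ := fun a b => by
    rw [← smul_sub, norm_smul, Real.norm_of_nonneg e0, mul_assoc]
    exact mul_le_mul_of_nonneg_left ((o.lg a b).trans (by gcongr)) e0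
  obtain ⟨u, hu⟩ : ∃ u : Fb Z → X × Y, ∀ a, u a = (ξ a.snd, a.fst) := ⟨_, fun _ => rfl⟩
  obtain ⟨m, hm⟩ : ∃ m : Fb Z → Fb Z, ∀ a, m a = a - ε • gr a := ⟨_, fun _ => rfl⟩
  have un : ∀ a, ‖(u a).1‖ = 1 := fun a => by rw [hu]; exact o.un _
  have l2 : ∀ a b : Fb Z, ‖u (m a) - u (m b)‖ ≤ 2 * c * ‖a - b‖ := fun a b => by
    have k : ‖m a - m b‖ ≤ 2 * ‖a - b‖ := by
      rw [hm, hm, sub_sub_sub_comm]
      refine (norm_sub_le _ _).trans ?_
      linarith [l1 a b, mul_le_mul_of_nonneg_right e1.1 (norm_nonneg (a - b))]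
    have k1 : ‖(m a).fst - (m b).fst‖ ≤ ‖m a - m b‖ := WithLp.norm_fst_le _ (m a - m b)
    have k2 : ‖(m a).snd - (m b).snd‖ ≤ ‖m a - m b‖ := WithLp.norm_snd_le _ (m a - m b)
    have k3 := (o.lx (m a).snd (m b).snd).trans (mul_le_mul hc k2 (norm_nonneg _) (by positivity))
    rw [hu, hu, Prod.mk_sub_mk, Prod.norm_mk, max_le_iff]
    have k4 := mul_le_mul_of_nonneg_left k (zero_le_one.trans c1)
    have k5 := mul_le_mul_of_nonneg_right c1 (norm_nonneg (a - b))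
    constructor <;> linarith
  have l3 : ∀ a : Fb Z, ‖a - p‖ ≤ δ / (3 * c) → ‖u (m a) - u p‖ < δ := fun a k => by
    have := l2 a p
    rw [hm p, hp, smul_zero, sub_zero] at this
    rw [le_div_iff₀ (by positivity)] at k
    linarith
  have l4 := (hδ (u p) (un _) (by rwa [hu]) _ _ (un _) (un _) (l3 a da) (l3 b db)).trans
    (mul_le_mul_of_nonneg_left (l2 a b) (by positivity))
  have l5 : ∀ a : Fb Z, fm r ξ gr ε a - a =
      WithLp.toLp 2 (r (u (m a)) - (u (m a)).2, (0 : Z)) - ε • gr a := fun a => by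
    rw [hu, hm]
    refine WithLp.ofLp_injective 2 (Prod.ext ?_ ?_) <;> simp [fm, Rt, sub_sub]
  rw [l5, l5, sub_sub_sub_comm]
  refine (norm_sub_le _ _).trans ?_
  rw [← WithLp.toLp_sub, Prod.mk_sub_mk, sub_zero, WithLp.norm_toLp_fst]
  have e : η / (4 * c) * (2 * c * ‖a - b‖) = η / 2 * ‖a - b‖ := by field_simp; ring
  linarith [l1 a b, mul_le_mul_of_nonneg_right e1.2 (norm_nonneg (a - b))]

end Crest.Agent.N218.C
end
end

-- ▼ part N218/C/Fs
section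

/-! Row 218, block (C): the path of maps `fs ε s x`, `s ∈ [0, 2]`. -/

set_option autoImplicit false
set_option linter.unusedSectionVars false
open scoped ContDiff Topology InnerProductSpace
open Set Filter

noncomputable section

namespace Crest.Agent.N218.C

variable {Z : Type} [NormedAddCommGroup Z] [InnerProductSpace ℝ Z]

/-- the path of maps: `s = 0` product map, `s = 2` gradient step of `g_x` and retraction -/
def fs (r : X × Y → Y) (B : Z →L[ℝ] Z) (ξ : X × Z → X) (gr : X × Fb Z → Fb Z) (ε s : ℝ) (x : X) :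
    Fb Z → Fb Z :=
  fm r (fun z => ξ (x, min s 1 • z)) (fun p => Bz B p + max (s - 1) 0 • gr (x, p)) ε

@[simp] theorem Bz_fst (B : Z →L[ℝ] Z) (p : Fb Z) : (Bz B p).fst = 0 := rfl
@[simp] theorem Bz_snd (B : Z →L[ℝ] Z) (p : Fb Z) : (Bz B p).snd = B p.snd := rfl
@[simp] theorem Rt_fst (r : X × Y → Y) (ξ : Z → X) (p : Fb Z) :
    (Rt r ξ p).fst = r (ξ p.snd, p.fst) := rfl
@[simp] theorem Rt_snd (r : X × Y → Y) (ξ : Z → X) (p : Fb Z) : (Rt r ξ p).snd = p.snd := rfl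

theorem Fb.ext {p p' : Fb Z} (h1 : p.fst = p'.fst) (h2 : p.snd = p'.snd) : p = p' :=
  WithLp.ofLp_injective 2 (Prod.ext h1 h2)

theorem cont_Bz (B : Z →L[ℝ] Z) : Continuous (Bz B) :=
  (WithLp.prod_continuous_toLp 2 Y Z).comp
    (continuous_const.prodMk (B.continuous.comp (WithLp.continuous_snd 2 Y Z)))

theorem cont_fs {r : X × Y → Y} (B : Z →L[ℝ] Z) {ξ : X × Z → X} {gr : X × Fb Z → Fb Z}
    (hr : Continuous r) (hξ : Continuous ξ) (hg : Continuous gr) {T : Type*} [TopologicalSpace T]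
    {ε s : T → ℝ} {x : T → X} {p : T → Fb Z} (h1 : Continuous ε) (h2 : Continuous s)
    (h3 : Continuous x) (h4 : Continuous p) :
    Continuous fun t => fs r B ξ gr (ε t) (s t) (x t) (p t) := by
  have a : Continuous fun t => p t - ε t • (Bz B (p t) + max (s t - 1) 0 • gr (x t, p t)) :=
    h4.sub (h1.smul (((cont_Bz B).comp h4).add
      (((h2.sub continuous_const).max continuous_const).smul (hg.comp (h3.prodMk h4)))))
  have a1 := (WithLp.continuous_fst 2 Y Z).comp a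
  have a2 := (WithLp.continuous_snd 2 Y Z).comp a
  exact (WithLp.prod_continuous_toLp 2 Y Z).comp
    ((hr.comp ((hξ.comp (h3.prodMk ((h2.min continuous_const).smul a2))).prodMk a1)).prodMk a2)

theorem fs_two (r : X × Y → Y) (B : Z →L[ℝ] Z) (ξ : X × Z → X) (gr : X × Fb Z → Fb Z) (ε : ℝ)
    (x : X) : fs r B ξ gr ε 2 x = fm r (fun z => ξ (x, z)) (fun p => Bz B p + gr (x, p)) ε := by
  have a : min (2 : ℝ) 1 = 1 := by norm_num
  have b : max ((2 : ℝ) - 1) 0 = 1 := by norm_num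
  simp only [fs, a, b, one_smul]

variable [CompleteSpace Z] {ρ : X × Y → ℝ} {r : X × Y → Y} {w R C : ℝ} {B : Z →L[ℝ] Z}
  {ξ : X × Z → X} {γ : X × Fb Z → ℝ} {gr : X × Fb Z → Fb Z} {zz : X → Fb Z}

theorem Dyn.fs_zero (h : Dyn ρ r w C B ξ γ gr zz) (ε : ℝ) {x : X} (hx : ‖x‖ = 1) (p : Fb Z) :
    fs r B ξ gr ε 0 x p = WithLp.toLp 2 (r (x, p.fst), p.snd - ε • B p.snd) := by
  refine Fb.ext ?_ ?_ <;> simp [fs, fm, h.x0 x hx]

theorem Dyn.norm_B (h : Dyn ρ r w C B ξ γ gr zz) (z : Z) : ‖B z‖ = ‖z‖ := by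
  have := h.sy z (B z)
  rw [h.sq, real_inner_self_eq_norm_sq, real_inner_self_eq_norm_sq] at this
  exact (sq_eq_sq₀ (norm_nonneg _) (norm_nonneg _)).1 this

theorem Dyn.one_s (h : Dyn ρ r w C B ξ γ gr zz) {x : X} (hx : ‖x‖ = 1) {s : ℝ}
    (hs : s ∈ Icc (0 : ℝ) 2) : One ρ r w C (fun z => ξ (x, min s 1 • z))
      (fun p => 1 / 2 * ⟪B p.snd, p.snd⟫_ℝ + max (s - 1) 0 * γ (x, p))
      (fun p => Bz B p + max (s - 1) 0 • gr (x, p)) :=
  h.one x _ _ hx ⟨le_min hs.1 zero_le_one, min_le_right _ _⟩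
    ⟨le_max_right _ _, max_le (by linarith [hs.2]) zero_le_one⟩
    ((le_total s 1).imp (fun a => max_eq_right (by linarith)) fun a => min_eq_right a)

/-- `fs` is the linear map `(0, 1 - ε B)` up to a bounded term -/
theorem Dyn.fs_bdd (h : Dyn ρ r w C B ξ γ gr zz) (H : Ret ρ r w R) {ε : ℝ} (e0 : 0 ≤ ε) {x : X}
    (hx : ‖x‖ = 1) {s : ℝ} (hs : s ∈ Icc (0 : ℝ) 2) (p : Fb Z) :
    ‖(fs r B ξ gr ε s x p).fst‖ ≤ R ∧
      ‖(fs r B ξ gr ε s x p).snd - (p.snd - ε • B p.snd)‖ ≤ ε * C := by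
  have u := (h.one_s hx hs).un
  refine ⟨(H.bl _ _ (u _) ((H.half _ _ (u _)).trans (by linarith [H.w0]))).le, ?_⟩
  have e : (fs r B ξ gr ε s x p).snd - (p.snd - ε • B p.snd) =
      -(ε • max (s - 1) 0 • (gr (x, p)).snd) := by simp [fs, fm]
  have m0 : 0 ≤ max (s - 1) 0 := le_max_right _ _
  have m1 : max (s - 1) 0 ≤ 1 := max_le (by linarith [hs.2]) zero_le_one
  rw [e, norm_neg, norm_smul, norm_smul, Real.norm_of_nonneg e0, Real.norm_of_nonneg m0]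
  have k := (WithLp.norm_snd_le (p := 2) Y (gr (x, p))).trans (h.gb x p hx)
  exact mul_le_mul_of_nonneg_left ((mul_le_of_le_one_left (norm_nonneg _) m1).trans k) e0

/-- periodic orbits are fixed points, and near them `fs - id` is `η`-Lipschitz -/
theorem Dyn.adm (h : Dyn ρ r w C B ξ γ gr zz) (H : Ret ρ r w R) {η : ℝ} (hη : 0 < η) :
    ∃ ε₀ > 0, ∃ δ > 0, ∀ ε, 0 < ε → ε ≤ ε₀ → ∀ x, ‖x‖ = 1 → ∀ s ∈ Icc (0 : ℝ) 2,
      (∀ (I : Type) [Fintype I] (σ : I ≃ I) (p : I → Fb Z),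
        (∀ i, p (σ i) = fs r B ξ gr ε s x (p i)) → ∀ i, p (σ i) = p i) ∧
      (∀ p, fs r B ξ gr ε s x p = p → ∀ a b, ‖a - p‖ ≤ δ → ‖b - p‖ ≤ δ →
        ‖(fs r B ξ gr ε s x a - a) - (fs r B ξ gr ε s x b - b)‖ ≤ η * ‖a - b‖) ∧
      ∀ p, fs r B ξ gr ε 2 x p = p ↔ p = zz x := by
  obtain ⟨e1, a1, k1⟩ := per ρ r w R H C
  obtain ⟨e2, a2, δ, a3, k2⟩ := lip ρ r w R H C η hη
  refine ⟨min e1 e2, lt_min a1 a2, δ, a3, fun ε e0 e x hx s hs => ?_⟩
  rw [le_min_iff] at e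
  have fx : ∀ s, ∀ hs : s ∈ Icc (0 : ℝ) 2, ∀ p, fs r B ξ gr ε s x p = p → _ := fun s hs p hp =>
    (k1 ε e0 e.1 Z _ _ _ (h.one_s hx hs) Unit (Equiv.refl _) (fun _ => p) (fun _ => hp.symm) ()).2
  refine ⟨fun I _ σ p hp i => (k1 ε e0 e.1 Z _ _ _ (h.one_s hx hs) I σ p hp i).1,
    fun p hp => k2 ε e0.le e.2 Z _ _ _ (h.one_s hx hs) p (fx s hs p hp).1 (fx s hs p hp).2,
    fun p => ⟨fun hp => ?_, fun hp => ?_⟩⟩
  · have k := fx 2 ⟨by norm_num, le_rfl⟩ p hp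
    have a : min (2 : ℝ) 1 = 1 := by norm_num
    have b : max ((2 : ℝ) - 1) 0 = 1 := by norm_num
    simp only [a, b, one_smul] at k
    exact (h.zu x p hx (k.2.trans_lt H.w0)).1 k.1
  · have z1 := h.zi x hx
    have z2 := (h.zu x (zz x) hx (z1.trans H.w0)).2 rfl
    have u := (h.one x 1 1 hx ⟨zero_le_one, le_rfl⟩ ⟨zero_le_one, le_rfl⟩ (Or.inr rfl)).un (zz x).snd
    rw [one_smul] at u
    rw [hp, fs_two, fm, z2, smul_zero, sub_zero]
    exact Fb.ext (H.fix _ _ u z1.le) rfl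

end Crest.Agent.N218.C
end
end

-- ▼ part N218/Sk/Hom

/-! Row 218 (helper48): `HOM` over any abstract invariant. -/

set_option autoImplicit false
open scoped InnerProductSpace
open Set Filter Topology

noncomputable section

namespace Crest.Agent.N218.Sk
open Pm C

section
variable {Z : Type} [NormedAddCommGroup Z] [InnerProductSpace ℝ Z]

/-- the linear map `(y, z) ↦ (0, z - ε B z)` -/
def LB (B : Z →L[ℝ] Z) (ε : ℝ) : Fb Z →L[ℝ] Fb Z :=
  ((WithLp.prodContinuousLinearEquiv 2 ℝ Y Z).symm : Y × Z →L[ℝ] Fb Z).comp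
    (((0 : Y × Z →L[ℝ] Y).prod ((1 - ε • B).comp (ContinuousLinearMap.snd ℝ Y Z))).comp
      (WithLp.prodContinuousLinearEquiv 2 ℝ Y Z : Fb Z →L[ℝ] Y × Z))

@[simp] theorem LB_fst (B : Z →L[ℝ] Z) (ε : ℝ) (p : Fb Z) : (LB B ε p).fst = 0 := rfl
@[simp] theorem LB_snd (B : Z →L[ℝ] Z) (ε : ℝ) (p : Fb Z) :
    (LB B ε p).snd = p.snd - ε • B p.snd := rfl

theorem la_LB {k : ℕ} (hk : 1 ≤ k) {B : Z →L[ℝ] Z} (sy : ∀ z z', ⟪B z, z'⟫_ℝ = ⟪z, B z'⟫_ℝ)
    (sq : ∀ z, B (B z) = z) {ε : ℝ} (e0 : 0 < ε) (e1 : ε ≤ 1) : LA k (LB B ε) := by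
  refine LA.of_sym (fun p p' => ?_) (fun v h => Fb.ext (congrArg WithLp.fst h).symm ?_) hk
  · simp [WithLp.prod_inner_apply, inner_sub_left, inner_sub_right, inner_smul_left,
      inner_smul_right, sy]
  · have a : v.snd - ε • B v.snd - ε • B (v.snd - ε • B v.snd) = v.snd := congrArg WithLp.snd h
    rw [map_sub, map_smul, sq] at a
    have b : ε • v.snd = (2 : ℝ) • B v.snd :=
      smul_right_injective Z e0.ne' (by dsimp only; linear_combination (norm := module) a)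
    have c := congrArg B b
    rw [map_smul, map_smul, sq] at c
    have d : (4 - ε ^ 2) • v.snd = 0 := by
      linear_combination (norm := module) -(2 : ℝ) • c - ε • b
    exact (smul_eq_zero.1 d).resolve_left (by nlinarith)
end

theorem ex_eta (j : ℕ) : ∃ η : ℝ, 0 < η ∧ (1 + η) ^ j < 3 := by
  have : ∀ᶠ η : ℝ in 𝓝 0, (1 + η) ^ j < 3 :=
    (by fun_prop : Continuous fun η : ℝ => (1 + η) ^ j).continuousAt.eventually_lt
      continuousAt_const (by simp)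
  have k : ∀ᶠ η in 𝓝[>] (0 : ℝ), 0 < η := self_mem_nhdsWithin
  exact (k.and (nhdsWithin_le_nhds this)).exists

/-- a robust form of `LIP` -/
theorem lip' {ρ : X × Y → ℝ} {r : X × Y → Y} {w R : ℝ} (h : Ret ρ r w R) (C : ℝ) {η : ℝ}
    (hη : 0 < η) : ∃ ε₀ > 0, ∃ δ > 0, ∀ ε, 0 ≤ ε → ε ≤ ε₀ → ∀ (Z : Type) [NormedAddCommGroup Z]
      [InnerProductSpace ℝ Z] [CompleteSpace Z] (ξ : Z → X) (g : Fb Z → ℝ) (gr : Fb Z → Fb Z),
      One ρ r w C ξ g gr → ∀ u : X × Y, ‖u.1‖ = 1 → ρ u ≤ 0 → ∀ a b,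
      ‖(ξ (a - ε • gr a).snd, (a - ε • gr a).fst) - u‖ < δ →
      ‖(ξ (b - ε • gr b).snd, (b - ε • gr b).fst) - u‖ < δ →
      ‖(fm r ξ gr ε a - a) - (fm r ξ gr ε b - b)‖ ≤ η * ‖a - b‖ := by
  obtain ⟨c, hc, c1⟩ : ∃ c : ℝ, C ≤ c ∧ 1 ≤ c := ⟨_, le_max_left _ 1, le_max_right _ _⟩
  obtain ⟨δ, d0, hδ⟩ := h.lip (η := η / (4 * c)) (by positivity)
  refine ⟨min 1 (η / 2) / c, by positivity, δ, d0,
    fun ε e0 e1 Z _ _ _ ξ g gr o v v1 v2 a b da db => ?_⟩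
  rw [le_div_iff₀ (by positivity), le_min_iff] at e1
  have l1 : ‖ε • gr a - ε • gr b‖ ≤ ε * c * ‖a - b‖ := by
    rw [← smul_sub, norm_smul, Real.norm_of_nonneg e0, mul_assoc]
    exact mul_le_mul_of_nonneg_left ((o.lg a b).trans (by gcongr)) e0
  obtain ⟨u, hu⟩ : ∃ u : Fb Z → X × Y, ∀ a, u a = (ξ a.snd, a.fst) := ⟨_, fun _ => rfl⟩
  obtain ⟨m, hm⟩ : ∃ m : Fb Z → Fb Z, ∀ a, m a = a - ε • gr a := ⟨_, fun _ => rfl⟩
  have un : ∀ a, ‖(u a).1‖ = 1 := fun a => by rw [hu]; exact o.un _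
  have l2 : ‖u (m a) - u (m b)‖ ≤ 2 * c * ‖a - b‖ := by
    have k : ‖m a - m b‖ ≤ 2 * ‖a - b‖ := by
      rw [hm, hm, sub_sub_sub_comm]
      refine (norm_sub_le _ _).trans ?_
      linarith [mul_le_mul_of_nonneg_right e1.1 (norm_nonneg (a - b))]
    have k1 : ‖(m a).fst - (m b).fst‖ ≤ ‖m a - m b‖ := WithLp.norm_fst_le _ (m a - m b)
    have k2 : ‖(m a).snd - (m b).snd‖ ≤ ‖m a - m b‖ := WithLp.norm_snd_le _ (m a - m b)
    have k3 := (o.lx (m a).snd (m b).snd).trans (mul_le_mul hc k2 (norm_nonneg _) (by positivity))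
    rw [hu, hu, Prod.mk_sub_mk, Prod.norm_mk, max_le_iff]
    have k4 := mul_le_mul_of_nonneg_left k (zero_le_one.trans c1)
    have k5 := mul_le_mul_of_nonneg_right c1 (norm_nonneg (a - b))
    constructor <;> linarith
  rw [← hm, ← hu] at da db
  have l4 := (hδ v v1 v2 _ _ (un _) (un _) da db).trans
    (mul_le_mul_of_nonneg_left l2 (by positivity))
  have l5 : ∀ a : Fb Z, fm r ξ gr ε a - a =
      WithLp.toLp 2 (r (u (m a)) - (u (m a)).2, (0 : Z)) - ε • gr a := fun a => by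
    rw [hu, hm]
    refine WithLp.ofLp_injective 2 (Prod.ext ?_ ?_) <;> simp [fm, Rt, sub_sub]
  rw [l5, l5, sub_sub_sub_comm]
  refine (norm_sub_le _ _).trans ?_
  rw [← WithLp.toLp_sub, Prod.mk_sub_mk, sub_zero, WithLp.norm_toLp_fst]
  have e : η / (4 * c) * (2 * c * ‖a - b‖) = η / 2 * ‖a - b‖ := by field_simp; ring
  linarith [mul_le_mul_of_nonneg_right e1.2 (norm_nonneg (a - b))]

theorem Fb_norm_le {Z : Type} [NormedAddCommGroup Z] (p : Fb Z) : ‖p‖ ≤ ‖p.fst‖ + ‖p.snd‖ := by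
  refine le_of_sq_le_sq ?_ (by positivity)
  rw [WithLp.prod_norm_sq_eq_of_L2]
  nlinarith [mul_nonneg (norm_nonneg p.fst) (norm_nonneg p.snd)]

/-- the path from `f0` to `fe` is a good family -/
theorem gf_fs {k : ℕ} (hk : 1 ≤ k) (Φ : A.Fam) {M : ℕ} {C : ℝ} {B : Eu M →L[ℝ] Eu M} {ξ γ gr zz}
    (h : Dyn Φ.ρ Φ.r Φ.w C B ξ γ gr zz) : ∃ ε₀ > 0, ∀ ε, 0 < ε → ε ≤ ε₀ →
      Gf k fun x : (S11 × unitInterval) × Fb (Eu M) =>
        fs Φ.r B ξ gr ε (2 * x.1.2) x.1.1 x.2 := by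
  have H := Φ.ret le_rfl
  obtain ⟨η, n0, hη⟩ := ex_eta (2 ^ k)
  obtain ⟨e1, p1, k1⟩ := per _ _ _ _ H C
  obtain ⟨e2, p2, δ, d0, k2⟩ := lip' H C n0
  refine ⟨min (min e1 e2) 1, by positivity, fun ε p q => ?_⟩
  simp only [le_min_iff] at q
  have u : ∀ x : S11, ‖(x : X)‖ = 1 := fun x => by simp
  have m : ∀ s : unitInterval, 2 * (s : ℝ) ∈ Icc (0 : ℝ) 2 := fun s =>
    ⟨by linarith [s.2.1], by linarith [s.2.2]⟩
  have o := fun b : S11 × unitInterval => h.one_s (u b.1) (m b.2)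
  refine Gf.of_yk (cont_fs B H.rs.continuous h.sx.continuous h.sr.continuous (by fun_prop)
    (by fun_prop) (by fun_prop) (by fun_prop)) _ (la_LB hk h.sy h.sq p q.2) (C := Φ.R + ε * C)
    (fun x => ?_) n0.le hη
    (fun b z hz i => (k1 ε p q.1.1 _ _ _ _ (o b) _ (Equiv.addRight 1) z hz i).1) fun b y hy => ?_
  · obtain ⟨a, b⟩ := h.fs_bdd H p.le (u x.1.1) (m x.1.2) x.2
    exact (Fb_norm_le _).trans (add_le_add (by simpa using a) b)
  · obtain ⟨-, g0, g1⟩ := k1 ε p q.1.1 _ _ _ _ (o b) Unit (Equiv.refl _) (fun _ => y)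
      (fun _ => hy.symm) ()
    let mm : (S11 × unitInterval) × Fb (Eu M) → Fb (Eu M) := fun x =>
      x.2 - ε • (Bz B x.2 + max (2 * (x.1.2 : ℝ) - 1) 0 • gr (x.1.1, x.2))
    have c1 : Continuous mm := by
      have := cont_Bz B
      have := h.sr.continuous
      fun_prop
    let uu : (S11 × unitInterval) × Fb (Eu M) → X × Y := fun x =>
      (ξ (x.1.1, min (2 * (x.1.2 : ℝ)) 1 • (mm x).snd), (mm x).fst)
    have c2 : Continuous uu := by
      have := (WithLp.continuous_fst 2 Y (Eu M)).comp c1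
      have := (WithLp.continuous_snd 2 Y (Eu M)).comp c1
      have := h.sx.continuous
      fun_prop
    have e : mm (b, y) = y := by simp only [mm, g0, smul_zero, sub_zero]
    have t : ∀ᶠ x in 𝓝 (b, y), ‖uu x - uu (b, y)‖ < δ :=
      (c2.sub continuous_const).norm.continuousAt.eventually_lt continuousAt_const
        (by change ‖uu (b, y) - uu (b, y)‖ < δ; rwa [sub_self, norm_zero])
    have t1 : Tendsto (fun x : _ × Fb (Eu M) × Fb (Eu M) => (x.1, x.2.1)) (𝓝 (b, y, y))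
      (𝓝 (b, y)) := Continuous.tendsto' (by fun_prop) _ _ rfl
    have t2 : Tendsto (fun x : _ × Fb (Eu M) × Fb (Eu M) => (x.1, x.2.2)) (𝓝 (b, y, y))
      (𝓝 (b, y)) := Continuous.tendsto' (by fun_prop) _ _ rfl
    filter_upwards [t1.eventually t, t2.eventually t] with x a1 a2
    exact k2 ε p.le q.1.2 _ _ _ _ (o x.1) (uu (b, y)) ((o b).un _) (by simpa only [uu, e] using g1)
      _ _ a1 a2

/-- **HOM** -/
theorem homt : HOMT := by
  intro T k hk Φ M C B ξ γ gr zz h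
  obtain ⟨e, e0, he⟩ := gf_fs (k := k) (by omega) Φ h
  refine ⟨e, e0, fun ε p q => ((he ε p q).pa T hk (fun x => ?_) fun x => ?_).symm⟩
  · rw [Icc.coe_zero, mul_zero, h.fs_zero ε (by simp)]
    refine Fb.ext ?_ ?_ <;> simp [f0, fm]
  · rw [Icc.coe_one, mul_one, fs_two]; rfl

end Crest.Agent.N218.Sk
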