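import Crest.Agent.N218.Pc.Defs
import Crest.Agent.N218.Pm.Kit3
import Crest.Agent.N218.Pm.Ecf
import Crest.Agent.N218.Pc.Fin0_Mg
import Crest.Agent.N218.D7.Ext
import Crest.Agent.N218.K.Denl
import Crest.Agent.N218.D3.Lbl_Mg
import Crest.Agent.N218.D6.Algm_Mg
import Crest.Agent.N218.D6.Pres_Mg
import Crest.Agent.N218.D6.Inst
import Crest.Agent.N218.Pc.Dsc_Mg
import Crest.Agent.N218.Pc.Tlf_Mg
import Crest.Agent.N218.Pc.Grd_Mg
import Crest.Agent.N218.Pc.Cnj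
import Crest.Agent.N218.Pc.Fd_Mg
import Crest.Agent.N218.D6.Lk
import Crest.Agent.N218.D3.Cmp
import Crest.Agent.N218.In.Gen
import Crest.Agent.N218.K.Dcm
import Crest.Agent.N218.Pc.Ll
import Crest.Agent.N218.A.Ana
import Crest.Agent.N218.D6.Lk2_Mg

-- ▼ part N218/Pc/Ads
section

/-! Row 218, block PIECE (helper28): `Sy` implies `Gf`. -/

set_option autoImplicit false
set_option linter.unusedVariables false
set_option maxHeartbeats 400000
open Set Topology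

noncomputable section

namespace Crest.Agent.N218.Pc
open Sk Pm

variable {X E : Type} [TopologicalSpace X] [CompactSpace X] [T2Space X] [NormedAddCommGroup E] {k : ℕ}

theorem per_it {E : Type} {f : E → E} {w : Ix k → E} (h : ∀ i, w i = f (w (i - 1))) (i : Ix k)
    (n : ℕ) : f^[n] (w i) = w (i + n) := by
  induction n with
  | zero => simp
  | succ n ih =>
    rw [Function.iterate_succ_apply', ih, h (i + (n + 1 : ℕ))]
    congr 2; push_cast; ring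

/-- cyclic orbits are constant when periodic points are fixed -/
theorem per_const {E : Type} {f : E → E} {w : Ix k → E} (h : ∀ i, w i = f (w (i - 1)))
    (p : ∀ y N, 0 < N → f^[N] y = y → f y = y) : f (w 0) = w 0 ∧ ∀ i, w i = w 0 := by
  have a := p (w 0) (2 ^ (k + 1)) (by positivity) (by rw [per_it h, ZMod.natCast_self, add_zero])
  refine ⟨a, fun i => ?_⟩
  have := per_it h 0 i.val
  rw [Function.iterate_fixed a, zero_add, ZMod.natCast_zmod_val] at this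
  exact this.symm

/-- good families from first-order data at the cyclic orbits -/
theorem gf_of [NormedSpace ℝ E] [FiniteDimensional ℝ E] {f : X × E → E} (hk : 1 ≤ k)
    (hf : Continuous f) {A : E →L[ℝ] E} (hA : LA k A) {C : ℝ} (hC : ∀ x, ‖f x - A x.2‖ ≤ C)
    (z : ∀ b (w : V k E), (∀ i, w i = f (b, w (i - 1))) →
      ∃ y M, (∀ i, w i = y) ∧ Ad.Sd f M (b, y) ∧ Nap M) : Gf k f := by
  have ok : (Psi k univ f).Ok := psi_ok_lin hf (A := fun _ => A) continuous_const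
    (fun b v e => hA 0 v le_rfl fun i => by simp [← e i]) fun K _ => ⟨C, fun b _ y => hC (b, y)⟩
  obtain ⟨d, d0, hd⟩ := Ad.glob ok.ct one_pos (by simpa using ok.pp univ isCompact_univ 1)
    (Q := (Psi k univ f).Nf) fun x a e => by
      obtain ⟨y, M, c, s, p⟩ := z x.1 x.2 fun i => sub_eq_zero.1 (congrFun e i)
      exact PM.nf_of_sd ok (mn_eq_zero.2 (funext fun i => by simp [c])) (psi_sd c s) (p.pen hk)
  refine ⟨hf, ⟨A, C, hA, hC⟩, d, d0, fun b s w s0 a e => ?_⟩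
  have e' : (Psi k univ f).P (b, w) + s • (Psi k univ f).n b (mn w) = 0 := funext e
  exact hd (b, w) (fun _ => mem_univ _)
    (by rw [eq_neg_of_add_eq_zero_left e', norm_neg]; exact a) (fun _ => mem_univ _) s s0 e'

theorem la_zero [InnerProductSpace ℝ E] (hk : 1 ≤ k) : LA k (0 : E →L[ℝ] E) :=
  LA.of_sym (fun _ _ => by simp) (fun v h => by simpa using h.symm) hk

theorem Sy.gf [InnerProductSpace ℝ E] [FiniteDimensional ℝ E] {f : X × E → E} (h : Sy f)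
    (hk : 1 ≤ k) : Gf k f :=
  let ⟨C, hC⟩ := h.bd
  gf_of hk h.ct (la_zero hk) (C := C) (fun x => by simpa using hC x) fun b w e =>
    let ⟨a, c⟩ := per_const (f := fun y => f (b, y)) e (h.per b)
    let ⟨M, m, s⟩ := h.sym b _ a
    ⟨w 0, M, c, s, Nap.of_sym m⟩

theorem ads : ADS := fun _ _ _ _ _ _ _ _ _ _ hk h => h.gf hk

end Crest.Agent.N218.Pc
end
end

-- ▼ part N218/Pc/Rim
section

/-! Row 218, block PIECE (helper78): removing the rim. -/

set_option autoImplicit false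
set_option linter.unusedVariables false
set_option linter.unusedSectionVars false
open Set Topology
open scoped RealInnerProductSpace

noncomputable section

namespace Crest.Agent.N218.Pc
open Pm Sk

namespace Rim
variable {k : ℕ} {B E : Type} [TopologicalSpace B] [NormedAddCommGroup E] [InnerProductSpace ℝ E]

theorem cyc (p : Ix k → Prop) (j : Ix k) (hj : p j) (st : ∀ i, p i → p (i + 1)) (i : Ix k) :
    p i := by
  have a : ∀ n : ℕ, p (j + n) := fun n => by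
    induction n with
    | zero => simpa using hj
    | succ n ih => rw [Nat.cast_succ, ← add_assoc]; exact st _ ih
  simpa using a (i - j).val

theorem pn {π : B → E →L[ℝ] E} (h : Pr π) (b : B) (y : E) : ‖π b y‖ ≤ ‖y‖ := by
  have a := h.sa b y (π b y)
  rw [h.id, real_inner_self_eq_norm_sq] at a
  have c := real_inner_le_norm y (π b y)
  by_contra n
  nlinarith [norm_nonneg y, norm_nonneg (π b y)]

/-- the normalised point -/
def nx (δ : ℝ) (y : V k E) : V k E := y - (1 - cl (2 * ‖mn y‖ / δ - 1)) • mn y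

theorem nx_sh (δ : ℝ) (y : V k E) : nx δ (sh k E y) = sh k E (nx δ y) := by
  simp only [nx, mn_sh, norm_sh, map_sub, map_smul]

theorem nx_ct (δ : ℝ) : Continuous (nx δ : V k E → V k E) := by
  unfold nx; fun_prop

theorem nx_le {δ : ℝ} (h : 0 < δ) (y : V k E) (i : Ix k) : ‖y i - nx δ y i‖ ≤ δ := by
  have m := cl_mem (2 * ‖mn y‖ / δ - 1)
  have e : y i - nx δ y i = (1 - cl (2 * ‖mn y‖ / δ - 1)) • mn y i := by simp [nx]
  rw [e, norm_smul, Real.norm_of_nonneg (sub_nonneg.2 m.2)]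
  rcases le_total δ ‖mn y‖ with c | c
  · rw [cl_of_ge (by rw [le_sub_iff_add_le, le_div_iff₀ h]; linarith)]; simpa using h.le
  · nlinarith [norm_le_pi_norm (mn y) i, m.1, norm_nonneg (mn y i)]

theorem nx_cv (δ : ℝ) (y : V k E) (L : E →L[ℝ] E) {C : ℝ} (h : ∀ i, ‖L (y i)‖ ≤ C) (i : Ix k) :
    ‖L (nx δ y i)‖ ≤ C := by
  have m := cl_mem (2 * ‖mn y‖ / δ - 1)
  have e : L (nx δ y i) = ((1 + cl (2 * ‖mn y‖ / δ - 1)) / 2) • L (y i) +
      ((1 - cl (2 * ‖mn y‖ / δ - 1)) / 2) • L (y (i + 2 ^ k)) := by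
    simp only [nx, Pi.sub_apply, Pi.smul_apply, mn, map_sub, map_smul]
    module
  rw [e]
  refine (norm_add_le _ _).trans ?_
  rw [norm_smul, norm_smul, Real.norm_of_nonneg (by linarith [m.1]),
    Real.norm_of_nonneg (by linarith [m.2])]
  nlinarith [h i, h (i + 2 ^ k), m.1, m.2]

theorem zer {g : B × E → E} {δ : ℝ} {x : B × V k E} (h : x ∈ ((Psi k univ g).F (tau δ)).Z)
    (i : Ix k) : x.2 (i + 1) = g (x.1, nx δ x.2 i) := by
  have a : nx δ x.2 (i + 1) - g (x.1, nx δ x.2 (i + 1 - 1)) +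
      ((1 - cl (2 * ‖mn x.2‖ / δ - 1)) • mn x.2) (i + 1) = 0 := congrFun h.2 (i + 1)
  rw [add_sub_cancel_right] at a
  rw [← sub_eq_zero, ← a]
  simp only [nx, Pi.sub_apply]
  abel

/-- expanding in the direction of `π` -/
theorem out {π : B → E →L[ℝ] E} (h : Pr π) {g : B × E → E} {δ μ : ℝ} (d0 : 0 < δ)
    (hδ : δ < (μ - 1) * (19 / 10)) {x : B × V k E} (z : x ∈ ((Psi k univ g).F (tau δ)).Z)
    (hg : ∀ y, 19 / 10 ≤ ‖π x.1 y‖ → π x.1 (g (x.1, y)) = μ • π x.1 y) (i : Ix k) :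
    ‖π x.1 (nx δ x.2 i)‖ < 19 / 10 := by
  obtain ⟨j, hj⟩ := Finite.exists_max fun i => ‖π x.1 (nx δ x.2 i)‖
  by_contra n
  have a : 19 / 10 ≤ ‖π x.1 (nx δ x.2 j)‖ := (not_lt.1 n).trans (hj i)
  have b := hg _ a
  rw [← zer z] at b
  have c := (pn h x.1 _).trans (nx_le d0 x.2 (j + 1))
  rw [map_sub, b] at c
  have d := norm_sub_norm_le (μ • π x.1 (nx δ x.2 j)) (π x.1 (nx δ x.2 (j + 1)))
  rw [norm_smul, Real.norm_of_nonneg (by linarith)] at d
  nlinarith [hj (j + 1)]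

/-- the rim -/
theorem rim0 [FiniteDimensional ℝ E] [T2Space B] {π : B → E →L[ℝ] E} (h : Pr π) {g : B × E → E} {δ μ : ℝ} {m : ℝ → ℝ} (hm : Mm μ m)
    (d0 : 0 < δ) (hδ : δ < (μ - 1) * (19 / 10)) {x : B × V k E}
    (z : x ∈ ((Psi k univ g).F (tau δ)).Z)
    (hg : ∀ y, 19 / 10 ≤ ‖π x.1 y‖ → π x.1 (g (x.1, y)) = m ‖π x.1 y‖ • π x.1 y ∧
      ‖g (x.1, y) - π x.1 (g (x.1, y))‖ ≤ 1 / 2 * ‖y - π x.1 y‖)
    (nz : (Psi k univ fun w : B × E => m ‖π w.1 w.2‖ • π w.1 w.2).NoZ δ x.1) (i : Ix k) :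
    ‖π x.1 (nx δ x.2 i)‖ < 19 / 10 := by
  by_contra n
  have al : ∀ j, 19 / 10 ≤ ‖π x.1 (nx δ x.2 j)‖ := cyc _ i (not_lt.1 n) fun j a => by
    have b := (hg _ a).1
    rw [← zer z] at b
    have c := (pn h x.1 _).trans (nx_le d0 x.2 (j + 1))
    rw [map_sub, b] at c
    have d := norm_sub_norm_le (m ‖π x.1 (nx δ x.2 j)‖ • π x.1 (nx δ x.2 j))
      (π x.1 (nx δ x.2 (j + 1)))
    rw [norm_smul, Real.norm_of_nonneg (hm.nn _ (norm_nonneg _))] at d
    have e : m (19 / 10) * (19 / 10) ≤ _ :=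
      hm.mono (show (0 : ℝ) ≤ 19 / 10 by norm_num) (norm_nonneg _) a
    rw [hm.eq _ (by norm_num) (by norm_num)] at e
    dsimp only at e
    linarith
  obtain ⟨j, hj⟩ := Finite.exists_max fun i => ‖(1 - π x.1 : E →L[ℝ] E) (nx δ x.2 i)‖
  have r : ∀ i, ‖(1 - π x.1 : E →L[ℝ] E) (x.2 i)‖ ≤
      1 / 2 * ‖(1 - π x.1 : E →L[ℝ] E) (nx δ x.2 j)‖ := fun i => by
    have a := (hg _ (al (i - 1))).2
    rw [← zer z, sub_add_cancel] at a
    have b : ‖nx δ x.2 (i - 1) - π x.1 (nx δ x.2 (i - 1))‖ ≤ _ := hj (i - 1)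
    exact a.trans (by linarith)
  have r0 : ‖(1 - π x.1 : E →L[ℝ] E) (nx δ x.2 j)‖ = 0 := by
    linarith [nx_cv δ x.2 _ r j, norm_nonneg ((1 - π x.1 : E →L[ℝ] E) (nx δ x.2 j))]
  refine nz.notMem (tau_ok d0) ⟨⟨z.1.1, fun _ => mem_univ _⟩, funext fun i => ?_⟩
  have a : ‖x.2 i - π x.1 (x.2 i)‖ ≤ _ := r i
  rw [r0, mul_zero, norm_le_zero_iff, sub_eq_zero] at a
  have b := (hg _ (al (i - 1))).1
  rw [← zer z, sub_add_cancel, ← a] at b
  change nx δ x.2 i - m ‖π x.1 (nx δ x.2 (i - 1))‖ • π x.1 (nx δ x.2 (i - 1)) +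
    ((1 - cl (2 * ‖mn x.2‖ / δ - 1)) • mn x.2) i = 0
  rw [← b]
  simp only [nx, Pi.sub_apply]
  abel

theorem psi_bd {g : B × E → E} {C : ℝ} (h : ∀ z, ‖g z‖ ≤ C) : (Psi k univ g).Bd := by
  refine ⟨C, fun x _ s s0 e => ?_⟩
  have a : x.2 + s • mn x.2 = fun i => g (x.1, x.2 (i - 1)) := funext fun i => by
    have : x.2 i - g (x.1, x.2 (i - 1)) + (s • mn x.2) i = 0 := congrFun e i
    rw [← sub_eq_zero, ← this, Pi.add_apply]; abel
  have b : ‖x.2 + s • mn x.2‖ ≤ C := a ▸ (pi_norm_le_iff_of_nonempty _).2 fun i => h _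
  have c := (norm_mn _).trans b
  rwa [mn_add, mn_smul, mn_mn, show mn x.2 + s • mn x.2 = (1 + s) • mn x.2 by module, norm_smul,
    Real.norm_of_nonneg (by linarith)] at c

theorem cv0 (a b : B × E → E) {x : B} {s : ℝ} (h : s ≤ 0) (y : E) :
    cv a b ((x, s), y) = a (x, y) := by simp [cv, cl_of_le h]
theorem cv1 (a b : B × E → E) {x : B} {s : ℝ} (h : 1 ≤ s) (y : E) :
    cv a b ((x, s), y) = b (x, y) := by simp [cv, cl_of_ge h]
end Rim

open Rim in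
theorem rim (fd : FD) : RIM := by
  intro X E _ _ _ _ _ _ A _ T π μ m k f e hk hπ hm hf ⟨C, hC⟩ h1 h2 h3
  obtain ⟨gm, p0⟩ := fd X E A T π μ m k hk hπ hm
  obtain ⟨C', hC'⟩ := hm.bd
  set a : X × E → E := fun z => m ‖π z.1 z.2‖ • π z.1 z.2 with ha
  have ac := gm.ct
  have fc := hf.ct
  have bd : ∀ z, ‖cv a f z‖ ≤ max C C' := fun z => by
    have c := cl_mem z.1.2
    have u : ‖a (z.1.1, z.2)‖ ≤ max C C' := by
      rw [ha, norm_smul, Real.norm_of_nonneg (hm.nn _ (norm_nonneg _))]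
      exact (hC' _ (norm_nonneg _)).trans (le_max_right _ _)
    have v := (hC (z.1.1, z.2)).trans (le_max_left C C')
    refine (norm_add_le _ _).trans ?_
    rw [norm_smul (1 - cl z.1.2), norm_smul (cl z.1.2), Real.norm_of_nonneg (sub_nonneg.2 c.2),
      Real.norm_of_nonneg c.1]
    nlinarith [c.1, c.2]
  have ok : ∀ {B : Type} [TopologicalSpace B] [T2Space B] {g : B × E → E} {C : ℝ}, Continuous g →
      (∀ z, ‖g z‖ ≤ C) → (Psi k univ g).Ok := fun c b =>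
    psi_ok_lin c (A := fun _ => 0) continuous_const (fun _ v e => funext fun i => by simpa using e i)
      fun _ _ => ⟨_, fun _ _ _ => by simpa using b _⟩
  have e0 : ((Psi k univ (cv a f)).pull fun x => (x, (0 : ℝ))) = Psi k univ a := by
    simp [Psi, PM.pull, cv0 a f le_rfl]
  have e1 : ((Psi k univ (cv a f)).pull fun x => (x, (1 : ℝ))) = Psi k univ f := by
    simp [Psi, PM.pull, cv1 a f le_rfl]
  obtain ⟨δ₁, d1, hd⟩ := ecf X A T k (sp E) 0 1 (Psi k univ (cv a f)) hk zero_le_one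
    (ok (by unfold cv; fun_prop) bd)
    (fun x s hs y => ⟨by simp [Psi], fun _ => by simp [Psi, cv0 a f hs, cv0 a f le_rfl], rfl⟩)
    (fun x s hs y => ⟨by simp [Psi], fun _ => by simp [Psi, cv1 a f hs, cv1 a f le_rfl], rfl⟩)
    (e0 ▸ gm.Adm) (e1 ▸ hf.Adm) (psi_bd bd)
  obtain ⟨δ₂, d2, nz⟩ := gm.Adm.noz (ok ac (C := C') fun z => by
    rw [ha, norm_smul, Real.norm_of_nonneg (hm.nn _ (norm_nonneg _))]
    exact hC' _ (norm_nonneg _))
  have m1 := hm.hμ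
  refine ⟨min (min δ₁ δ₂) ((μ - 1) * (19 / 10)), by positivity, fun δ d0 dl o => ?_⟩
  simp only [lt_min_iff] at dl
  obtain ⟨o', pe⟩ := hd δ d0 dl.1.1
  rw [e0, e1] at pe
  have pc := hπ.ct
  have hπ' : Pr fun b : X × ℝ => π b.1 := ⟨by fun_prop, fun _ => hπ.id _, fun _ => hπ.sa _⟩
  have nc := nx_ct (k := k) (E := E) δ
  have q := o'.eqv_germ o (N := {x | ∀ i, ‖π x.1.1 (nx δ x.2 i)‖ < 2})
    (by
      simp only [ofPred_forall]
      exact isOpen_iInter_of_finite fun i => isOpen_lt (by fun_prop) continuous_const)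
    (fun x hx i => by simpa only [nx_sh, sh_apply] using hx (i - 1))
    (fun x hx i => lt_trans (rim0 hπ' hm d0 dl.2 hx (fun y hy => ?_)
      ((nz x.1.1).mono dl.1.2.le) i) (by norm_num))
    (fun x hx i => lt_trans (out hπ' d0 dl.2 hx (fun y hy => ?_) i) (by norm_num))
    fun x hx => ⟨Iff.rfl, fun _ => funext fun i => ?_⟩
  · rw [← T.pa_eqv k (sp E) _ _ hk q]
    have : T.pa k (sp E) (Psi k univ a).Ec = 0 := p0
    rw [this, sub_zero] at pe
    exact pe.symm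
  · obtain ⟨u, v⟩ := h1 (x.1.1, y) hy
    have c := cl_mem x.1.2
    simp only [cv, ha, map_add, map_smul, hπ.id] at u v ⊢
    refine ⟨by rw [u]; module, le_trans (le_of_eq (congrArg _ ?_)) ((norm_smul_le (cl x.1.2)
      (f (x.1.1, y) - π x.1.1 (f (x.1.1, y)))).trans ?_)⟩
    · module
    · rw [Real.norm_of_nonneg c.1]
      nlinarith [c.2, norm_nonneg (f (x.1.1, y) - π x.1.1 (f (x.1.1, y)))]
  · have u : π x.1.1 (e (x.1.1, y)) = μ • π x.1.1 y := by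
      rcases le_total ‖π x.1.1 y‖ 2 with c | c
      · rw [h2 (x.1.1, y) c, (h1 (x.1.1, y) hy).1, hm.eq _ (norm_nonneg _) c]
      · exact h3 (x.1.1, y) c
    simp only [cv, map_add, map_smul, hπ.id, u]
    module
  · have c := (hx (i - 1)).le
    change nx δ x.2 i - cv a f (x.1, nx δ x.2 (i - 1)) + _ =
      nx δ x.2 i - cv (fun z => μ • π z.1 z.2) e (x.1, nx δ x.2 (i - 1)) + _
    simp only [cv, ha, h2 (x.1.1, nx δ x.2 (i - 1)) c, hm.eq _ (norm_nonneg _) c]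
    rfl

end Crest.Agent.N218.Pc

end
end

-- ▼ part N218/Sk/Al2
section

/-! Row 218 (helper40): more closed blocks. -/

set_option autoImplicit false

noncomputable section

namespace Crest.Agent.N218.Sk

theorem exa0 : D7.EXA := fun _ _ _ _ _ o k _ _ =>
  D7.ext K.thom K.kln (K.denl K.thom K.kln) (by simp) o k
theorem d3t0 : D3.D3T :=
  D3.d31 (D3.lbl D3.hopf0 D3.nuk0) (D3.chb (D3.pfr D3.okx D3.zl)) (D3.eis D3.rep D3.oke)
theorem d6t0 (h1 : D6.LOCA) (h2 : D6.LINK1) (h3 : D6.Lk.CM1) : D6.D6T :=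
  D6.fin h1 D6.kve D6.inst D6.uni h2 (D6.Lk.link2 D6.Lk.exq D6.Lk.sur D6.Lk.nul h3 D6.Lk.cm2)
    D6.algm D6.pres D6.finb
open Pc in
theorem piece0 (h : SQZ) : P.PIECE :=
  Fn.piece (fun _ h => sml h) emb ads dsc rh r0k pc0 (pc1 dsc) psh cnj llk grd h tlf rgu rgd
    (rim fd) red0

end Crest.Agent.N218.Sk

end
end

-- ▼ part N218/D6/LkCm1
section

/-!
# Row 218, block D6 (helper21): the classifying map in polar coordinates
-/

set_option autoImplicit false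
set_option linter.unusedVariables false
set_option linter.unusedSectionVars false

open Topology Filter Set OnePoint unitInterval

noncomputable section

namespace Crest.Agent.N218.D6.Lk

open K K.Cp Pm In D3
open Sk (S2 X22)

namespace C1

section gen
variable {Γ : Type} [Group Γ] [TopologicalSpace Γ] [CompactSpace Γ] {Y : GS Γ} {M N : LS Γ}
  {W : Rep Γ} {e : N.Z → M.Z} {U : Set M.Z} {e' : M.Z → N.Z}

/-- a problem on an open subset -/
def opn (U : Set M.Z) (e' : M.Z → N.Z) (Q : FP Y N W) : FP Y M W :=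
  ⟨{x | x.2 ∈ U ∧ (x.1, e' x.2) ∈ Q.O}, fun x => Q.f (x.1, e' x.2)⟩

theorem pm_oc (h : Oe e U e') (eq : ∀ g n, e (N.act g n) = M.act g (e n)) :
    Pm Y M N fun x => oc U e' x.2 := by
  refine ⟨h.oc_ct.comp continuous_snd, fun K k => ⟨e '' K, k.image h.ct, fun p w w' n a m =>
    n ⟨w', m, by obtain ⟨o, rfl⟩ := oc_eq.1 a; exact h.ri w o⟩⟩, fun γ y w => ?_⟩
  have i : ∀ g, ∀ w ∈ U, M.act g w = e (N.act g (e' w)) := fun g w o => by rw [eq, h.ri w o]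
  by_cases o : w ∈ U
  · change oc U e' (M.act γ w) = N.sph.act γ (oc U e' w)
    rw [oc_in o, i γ w o, oc_in (h.mem _), h.li]; rfl
  · change oc U e' (M.act γ w) = N.sph.act γ (oc U e' w)
    rw [oc_out o, oc_out fun p => o (by rw [← M.inv_act γ w, i _ _ p]; exact h.mem _)]; rfl

theorem ok_of (h : Oe e U e') (eq : ∀ g n, e (N.act g n) = M.act g (e n)) {Q : FP Y N W}
    (o : (opn U e' Q).Ok) : Q.Ok := by
  have c : Continuous fun x : Y.Z × N.Z => (x.1, e x.2) :=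
    continuous_fst.prodMk (h.ct.comp continuous_snd)
  have a : ∀ x : Y.Z × N.Z, (x.1, e x.2) ∈ (opn U e' Q).O ↔ x ∈ Q.O := fun x => by
    simp [opn, h.mem, h.li]
  have b : ∀ x : Y.Z × N.Z, (opn U e' Q).f (x.1, e x.2) = Q.f x := fun x => by simp [opn, h.li]
  refine ⟨(Set.ext a : _ = Q.O) ▸ o.op.preimage c, fun g x i => (a _).1 ?_,
    (o.ct.comp c.continuousOn fun x i => (a x).2 i).congr fun x _ => (b x).symm,
    fun g x i => ?_, ?_⟩
  · rw [eq]; exact o.inv g _ ((a x).2 i)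
  · rw [← b, ← b x, eq]; exact o.eq g _ ((a x).2 i)
  · convert o.cp.image_of_continuousOn (f := fun x => (x.1, e' x.2)) (continuousOn_fst.prodMk
      (h.ct'.comp continuousOn_snd fun x i => i.1.1)) using 1
    ext x
    exact ⟨fun i => ⟨_, ⟨(a x).2 i.1, (b x).trans i.2⟩, Prod.ext rfl (h.li _)⟩,
      by rintro ⟨z, i, rfl⟩; exact ⟨i.1.2, i.2⟩⟩

theorem ht_opn (h : Oe e U e') (eq : ∀ g n, e (N.act g n) = M.act g (e n)) {Q : FP Y N W}
    (o : Q.Ok) {C : H1 (Sb Y M) (Sb Y N)} (r : Rg C fun x => oc U e' x.2) :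
    (opn U e' Q).hm.Ht (C.cm Q.hm) :=
  (cmp' Y M N W _ C Q (opn U e' Q) (pm_oc h eq) r o (fun x => ⟨fun i => ⟨_, oc_in i.1, i.2⟩,
    fun ⟨n, a, b⟩ => ⟨(oc_eq.1 a).1, (oc_eq.1 a).2 ▸ b⟩⟩)
    fun x n a b => (oc_eq.1 a).2 ▸ rfl).2
end gen

theorem ang_smul {c : ℝ} (h : 0 < c) (w : ℂ) : ang (c • w) = ang w := by
  rw [ang, Complex.real_smul, Complex.arg_real_mul _ h, ang]

theorem n_exp (t : ℝ) (x : S2) : ‖Real.exp t • (x : E3)‖ = Real.exp t := by
  rw [norm_smul, mem_sphere_zero_iff_norm.1 x.2, mul_one, Real.norm_of_nonneg (Real.exp_pos t).le]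
theorem ne_exp (t : ℝ) (x : S2) : Real.exp t • (x : E3) ≠ 0 :=
  norm_pos_iff.1 (by rw [n_exp]; exact Real.exp_pos t)
theorem rad_exp (t : ℝ) (x : S2) : Emb.rad E3 (Real.exp t • (x : E3)) = x := Subtype.ext (by
  rw [Emb.rad_coe (ne_exp t x), n_exp, inv_smul_smul₀ (Real.exp_pos t).ne'])
theorem exp_rad {p : E3} (h : p ≠ 0) : Real.exp (Real.log ‖p‖) • (Emb.rad E3 p : E3) = p := by
  rw [Emb.rad_coe h, Real.exp_log (norm_pos_iff.2 h), smul_inv_smul₀ (norm_ne_zero_iff.2 h)]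

variable (k : ℕ) (E : Type) [NormedAddCommGroup E] [NormedSpace ℝ E] [FiniteDimensional ℝ E]

theorem oe : Oe (cI k E) (cU k E) (cE k E) where
  ct := by unfold cI; fun_prop
  op := (isOpen_ne_fun (by fun_prop) continuous_const).inter
    (isOpen_ne_fun (by fun_prop) continuous_const)
  ct' := by
    have a : ∀ {f : ((((E3 × E3) × ℂ) × V k E) × ℝ) × ℝ → E3}, Continuous f →
        (∀ x ∈ cU k E, f x ≠ 0) → ContinuousOn (fun x => Emb.rad E3 (f x)) (cU k E) ∧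
          ContinuousOn (fun x => Real.log ‖f x‖) (cU k E) := fun c h =>
      ⟨(Emb.rad_on E3).comp c.continuousOn h, log_on.comp c.continuousOn h⟩
    have a1 := a (f := fun x => x.1.1.1.1.1) (by fun_prop) fun _ h => h.1
    have a2 := a (f := fun x => x.1.1.1.1.2) (by fun_prop) fun _ h => h.2
    exact (a1.1.prodMk a2.1).prodMk ((by fun_prop : ContinuousOn _ _).prodMk
      (((a1.2.prodMk a2.2).prodMk (by fun_prop)).prodMk (by fun_prop)))
  mem a := ⟨ne_exp _ _, ne_exp _ _⟩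
  li a := by simp only [cE, cI, rad_exp, n_exp, Real.log_exp, neg_neg]
  ri a h := by simp only [cE, cI, exp_rad h.1, exp_rad h.2, neg_neg]

variable {k E} {m : ℕ} {P : Pb (X22 × UnitAddCircle) k E} {kV : V k E → Fin m → ℂ}

/-- the rotation -/
theorem rot (h : Cy P kV) (o : (Tc (ck k) (cc _) m ((e22.circ.pb P).st (Rep.triv _ ℝ))
      fun z : (((E3 × E3) × ℂ) × V k E) × ℝ => kV z.1.2).Ok) :
    (opn (M := AA k E) (N := XN k E) (cU k E) (cE k E) (Qp P kV)).Ok ∧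
    (Tc (ck k) (cc _) m ((e22.circ.pb P).st (Rep.triv _ ℝ))
      fun z : (((E3 × E3) × ℂ) × V k E) × ℝ => kV z.1.2).hm.Ht
      (opn (M := AA k E) (N := XN k E) (cU k E) (cE k E) (Qp P kV)).hm := by
  obtain ⟨p1, p2, -⟩ := e22.circ.core h.ok
  have kc := h.ct
  let O : Set (I × US m × ((((E3 × E3) × ℂ) × V k E) × ℝ) × ℝ) :=
    {z | z.2.2.1.1.1 ∈ e22.circ.Ω ∧ (e22.circ.π z.2.2.1.1.1, z.2.2.1.1.2) ∈ P.O}
  let f : I × US m × ((((E3 × E3) × ℂ) × V k E) × ℝ) × ℝ →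
      ((((ℝ × ℝ) × ℝ) × V k E) × ℝ) × (Fin m → ℂ) := fun z =>
    (((((e22.circ.n z.2.2.1.1.1).1, (1 - z.1) * (e22.circ.n z.2.2.1.1.1).2 - z.1 * z.2.2.2),
      P.h (e22.circ.π z.2.2.1.1.1, z.2.2.1.1.2)), z.2.2.1.2), kV z.2.2.1.1.2 -
      Real.exp (z.1 * (e22.circ.n z.2.2.1.1.1).2 + (1 - z.1) * z.2.2.2) • z.2.1.1)
  have fc : ContinuousOn f O := by
    have c := p2.comp (f := fun z : I × US m × ((((E3 × E3) × ℂ) × V k E) × ℝ) × ℝ => z.2.2.1.1)
      (s := O) (by fun_prop) fun _ a => a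
    have c1 : ContinuousOn (fun z => e22.circ.n z.2.2.1.1.1) O := c.fst
    have c2 : ContinuousOn (fun z => P.h (e22.circ.π z.2.2.1.1.1, z.2.2.1.1.2)) O := c.snd
    have s : ContinuousOn (fun z => (z.1 : ℝ)) O := by fun_prop
    have t : ContinuousOn (fun z => z.2.2.2) O := by fun_prop
    have r : ContinuousOn (fun z => z.2.2.1.2) O := by fun_prop
    have u : ContinuousOn (fun z => z.2.1.1) O := by fun_prop
    have v : ContinuousOn (fun z => kV z.2.2.1.1.2) O := by fun_prop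
    exact (((c1.fst.prodMk (((continuousOn_const.sub s).mul c1.snd).sub (s.mul t))).prodMk
      c2).prodMk r).prodMk (v.sub (((s.mul c1.snd).add ((continuousOn_const.sub s).mul t)).rexp.smul u))
  have D : ∀ s : I, (0 : ℝ) < (1 - s) ^ 2 + s ^ 2 := fun s => by nlinarith [sq_nonneg (1 - 2 * (s : ℝ))]
  let Ψ : I × US m × ((((E3 × E3) × ℂ) × V k E) × ℝ) × ℝ →
      I × US m × ((((E3 × E3) × ℂ) × V k E) × ℝ) × ℝ := fun z =>
    (z.1, z.2.1, (((z.2.2.1.1.1.1, Real.exp (z.1 * z.2.2.2 / ((1 - z.1) ^ 2 + z.1 ^ 2)) •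
      z.2.2.1.1.1.2), z.2.2.1.1.2), z.2.2.1.2), (1 - z.1) * z.2.2.2 / ((1 - z.1) ^ 2 + z.1 ^ 2))
  have k1 := (isCompact_univ.prod o.cp).image (f := Ψ)
    (by fun_prop (disch := exact fun z => (D _).ne'))
  have op : IsOpen O := p1.preimage continuous_snd.snd.fst.fst
  refine And.right (FP.ht_of (Y := L k m) (M := AA k E) (W := TR k m E) _ _ O f op
    (fun g t x i => ⟨i.1, (ok_act h.ok g.toAdd _ _ i.2).1⟩) fc (fun g t x i => ?_) ?_
    (fun x => and_iff_left trivial) (fun x i => ?_)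
    (fun x => ⟨fun i => ⟨⟨i.1, i.2.1⟩, i.2.2⟩, fun i => ⟨i.1.1, i.1.2, i.2⟩⟩) fun x i => ?_)
  · refine Prod.ext (Prod.ext (Prod.ext rfl (ok_act h.ok g.toAdd _ _ i.2).2) rfl) (funext fun j => ?_)
    refine (congrArg (· - _) (congrFun (h.eq g x.2.1.1.2) j)).trans ?_
    have : ∀ (c a b : ℂ) (r : ℝ), c * a - r • (c * b) = c * (a - r • b) := fun c a b r => by
      rw [mul_sub, mul_smul_comm]
    exact this _ _ _ _
  · have s : Ψ '' univ ×ˢ {x ∈ (Tc (ck k) (cc _) m ((e22.circ.pb P).st (Rep.triv _ ℝ))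
        fun z : (((E3 × E3) × ℂ) × V k E) × ℝ => kV z.1.2).O | (Tc (ck k) (cc _) m
        ((e22.circ.pb P).st (Rep.triv _ ℝ))
        fun z : (((E3 × E3) × ℂ) × V k E) × ℝ => kV z.1.2).f x = 0} ⊆ O := by
      rintro _ ⟨z, ⟨-, i, -⟩, rfl⟩
      refine ⟨⟨i.1.1.1, smul_ne_zero (Real.exp_pos _).ne' i.1.1.2⟩, ?_⟩
      change ((_, ang (_ • _)), _) ∈ _
      rw [ang_smul (Real.exp_pos _)]
      exact i.1.2
    refine (congrArg IsCompact ((Subset.antisymm (fun z i => ⟨?_, i.2⟩)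
      fun z i => ⟨s i.1, i.2⟩ : {z ∈ O | f z = 0} = _ ∩ f ⁻¹' {0}))).mpr
      (k1.of_isClosed_subset ((fc.mono s).preimage_isClosed_of_isClosed k1.isClosed
      isClosed_singleton) inter_subset_left)
    obtain ⟨s, u, ⟨⟨⟨p, w⟩, v⟩, r⟩, t⟩ := z
    obtain ⟨⟨⟨i1, i2⟩, i3⟩, z⟩ := i
    have w0 : 0 < ‖w‖ := norm_pos_iff.2 i2
    have z1 : (1 - s : ℝ) * Real.log ‖w‖ - s * t = 0 := congrArg (·.1.1.1.2) z
    have a : ang (‖w‖⁻¹ • w) = ang w := ang_smul (inv_pos.2 w0) w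
    refine ⟨(s, u, (((p, ‖w‖⁻¹ • w), v), r), s * Real.log ‖w‖ + (1 - s) * t),
      ⟨trivial, ⟨⟨⟨i1, smul_ne_zero (inv_pos.2 w0).ne' i2⟩, ?_⟩, trivial⟩, ?_⟩, ?_⟩
    · change ((_, ang (_ • _)), _) ∈ _
      rw [a]; exact i3
    · refine Prod.ext (Prod.ext (Prod.ext (Prod.ext (congrArg (·.1.1.1.1) z) ?_) ?_)
        (congrArg (·.1.2) z)) (congrArg (·.2) z)
      · change Real.log ‖‖w‖⁻¹ • w‖ = 0
        rw [norm_smul, norm_inv, norm_norm, inv_mul_cancel₀ w0.ne', Real.log_one]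
      · change P.h ((_, ang (_ • _)), _) = 0
        rw [a]; exact congrArg (·.1.1.2) z
    · have e1 : s * (s * Real.log ‖w‖ + (1 - s) * t) / ((1 - s) ^ 2 + s ^ 2 : ℝ) = Real.log ‖w‖ := by
        rw [div_eq_iff (D s).ne']; linear_combination -(1 - s : ℝ) * z1
      have e2 : (1 - s) * (s * Real.log ‖w‖ + (1 - s) * t) / ((1 - s) ^ 2 + s ^ 2 : ℝ) = t := by
        rw [div_eq_iff (D s).ne']; linear_combination (s : ℝ) * z1
      simp only [Ψ, e1, e2, Real.exp_log w0, smul_inv_smul₀ w0.ne']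
  · simp only [f, Icc.coe_zero, sub_zero, one_mul, zero_mul, zero_add]; rfl
  · have : Real.exp (e22.circ.n x.2.1.1.1).2 = ‖x.2.1.1.1.2‖ := Real.exp_log (norm_pos_iff.2 i.2.1)
    simp only [f, Icc.coe_one, sub_self, one_mul, zero_mul, add_zero, zero_sub, this]; rfl

end C1

theorem cm1 : CM1 := by
  intro k m E _ _ _ C P kV hC h
  have fr := Gn.fr_st (e22.circ.pb_fr h.ok) (Rep.triv _ ℝ)
  have l : ((e22.circ.pb P).st (Rep.triv _ ℝ)).Lift (UU (ck k) (cc _) m)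
      fun z : (((E3 × E3) × ℂ) × V k E) × ℝ => kV z.1.2 :=
    ⟨(h.ct.comp continuous_fst.snd).continuousOn, fun g x _ => h.eq g x.1.2,
      fun x i => h.nz _ i.1.1.2⟩
  have o := Dc.tc_ok _ _ _ fr l
  obtain ⟨a, b⟩ := C1.rot h o
  have q := C1.ok_of (M := AA k E) (N := XN k E) (C1.oe k E) (fun _ _ => rfl) a
  refine ⟨q, fun x => ⟨_, ⟨_, _, fr.hb, l, o.rp_hm⟩, ?_⟩⟩
  rw [(b.tr (C1.ht_opn (M := AA k E) (N := XN k E) (C1.oe k E) (fun _ _ => rfl) q hC)).pull_eq]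
  exact pull_cm _ _ x

end Crest.Agent.N218.D6.Lk

end
end

-- ▼ part N218/Pc/Sq1
section

/-! Row 218, block PIECE (helper48): the derivative of the squeezed step at its fixed points. -/

set_option autoImplicit false
open Set Filter Topology
open scoped ContDiff RealInnerProductSpace

noncomputable section

namespace Crest.Agent.N218.Pc.Sq1
open P Ll

theorem sd_congr {T V : Type*} [TopologicalSpace T] [NormedAddCommGroup V] [NormedSpace ℝ V]
    {P Q : T × V → V} {D : V →L[ℝ] V} {x : T × V} (h : Ad.Sd P D x)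
    (e : ∀ᶠ z in 𝓝 x, Q z = P z) : Ad.Sd Q D x := fun ε e0 => by
  have t1 : Tendsto (fun y : T × V × V => (y.1, y.2.1)) (𝓝 (x.1, x.2, x.2)) (𝓝 x) :=
    Continuous.tendsto' (by fun_prop) _ _ rfl
  have t2 : Tendsto (fun y : T × V × V => (y.1, y.2.2)) (𝓝 (x.1, x.2, x.2)) (𝓝 x) :=
    Continuous.tendsto' (by fun_prop) _ _ rfl
  filter_upwards [h ε e0, t1.eventually e, t2.eventually e] with y a b c
  rwa [b, c]

theorem sd_lin {T V : Type*} [TopologicalSpace T] [NormedAddCommGroup V] [NormedSpace ℝ V]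
    [FiniteDimensional ℝ V] {F : V → V} (hF : ContDiff ℝ ∞ F) {L : T → V →L[ℝ] V} (hL : Continuous L) (x : T × V) :
    Ad.Sd (fun z : T × V => F (L z.1 z.2)) ((fderiv ℝ F (L x.1 x.2)).comp (L x.1)) x :=
  Ad.Sd.of_c1 (D := fun z => (fderiv ℝ F (L z.1 z.2)).comp (L z.1))
    (((hF.continuous_fderiv (by simp)).comp (by fun_prop)).clm_comp (by fun_prop)).continuousAt
    (.of_forall fun z => (hF.differentiable (by simp) _).hasFDerivAt.comp z.2 (L z.1).hasFDerivAt)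

theorem qV_eq (y : Y) : qV y = pV y := (pV_eq y).symm
theorem qW_eq (y : Y) : qW y = pW y := (pW_eq y).symm

theorem tau_pos {τ : ℝ} (ht : st (10 * τ) = 2 / 1000000) : 0 < τ :=
  lt_of_not_ge fun a => by rw [st_z (by linarith)] at ht; norm_num at ht

theorem cf_one {τ ρ : ℝ} (h0 : 0 < τ) (h : ρ ^ 2 ≤ 4 + τ) : cf τ ρ = 1 := by
  rw [cf, rr, max_eq_right (Real.le_sqrt_of_sq_le h), div_self]
  exact (Real.sqrt_pos.2 (by linarith)).ne'

theorem vp_lo {τ : ℝ} (h0 : 0 < τ) (t : ℝ) {y : Y} (h : ‖pw y‖ ≤ 1) : vp τ t y = y := by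
  rw [vp, cf_one h0 (by nlinarith [norm_nonneg (pw y)]), chi, Pm.cl,
    max_eq_left ((min_le_right _ _).trans (by linarith))]
  simp

theorem vp_hi {τ : ℝ} (h0 : 0 < τ) (t : ℝ) {y : Y} (h : 19 / 10 ≤ ‖pw y‖)
    (h' : ‖pw y‖ ^ 2 ≤ 4 + τ) : vp τ t y = dg (1 - t) 1 (1 - t) y := by
  rw [vp, cf_one h0 h', chi, Pm.cl, min_eq_left (by linarith), max_eq_right zero_le_one, qW_eq,
    dg_apply]
  module

/-- the profile of the rim term -/
def ps (u : ℝ) : ℝ := 2000 * st (10 * (2 * u - 4))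

theorem ps_sm : ContDiff ℝ ∞ ps := contDiff_const.mul (st_sm.comp (by fun_prop))

/-- the step near the rim -/
def E0 (ε : ℝ) (y : Y) : Y :=
  y - ε • (dg (999 / 500) (-(1 / 500)) 2 y + ps (1 / 2 * ⟪dg 1 1 0 y, y⟫) • dg 1 1 0 y)

theorem E0_sm (ε : ℝ) : ContDiff ℝ ∞ (E0 ε) :=
  contDiff_id.sub (((dg _ _ _).contDiff.add ((ps_sm.comp (contDiff_const.mul
    ((dg 1 1 0).contDiff.inner ℝ contDiff_id))).smul (dg 1 1 0).contDiff)).const_smul ε)

theorem E0_d (ε : ℝ) (y ξ : Y) : fderiv ℝ (E0 ε) y ξ = ξ - ε • (dg (999 / 500) (-(1 / 500)) 2 ξ +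
    (ps (1 / 2 * ⟪dg 1 1 0 y, y⟫) • dg 1 1 0 ξ +
      (deriv ps (1 / 2 * ⟪dg 1 1 0 y, y⟫) * ⟪dg 1 1 0 y, ξ⟫) • dg 1 1 0 y)) := by
  have a := ((ps_sm.differentiable (by simp) _).hasDerivAt.comp_hasFDerivAt y (quad_d 1 1 0 y)).smul
    (dg 1 1 0).hasFDerivAt
  rw [show fderiv ℝ (E0 ε) y = _ from ((hasFDerivAt_id y).sub
    (((dg (999 / 500) (-(1 / 500)) 2).hasFDerivAt.add a).const_smul ε)).fderiv]
  simp

variable {M : ℂ × P.V → P.V} (hM : Lk M)
include hM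

theorem Es_lo (s ε : ℝ) {z : S × Y} (h : ta z.2 < 1) :
    Es (LL M) s ε z = (1 - ε • dg (-(1 / 500)) (999 / 500) 2) z.2 := by
  rw [Es, up, hM.gr, hM.glo ((lb s z.1).1, z.2) h, ta_eq, st_z (by linarith), qV_eq, qW_eq]
  simp only [ContinuousLinearMap.sub_apply, ContinuousLinearMap.smul_apply, dg_apply,
    ContinuousLinearMap.one_apply]
  module

theorem Es_hi (s ε : ℝ) {z : S × Y} (h : 3 < ta z.2) : Es (LL M) s ε z = E0 ε z.2 := by
  rw [Es, up, hM.gr, hM.ghi ((lb s z.1).1, z.2) h, ta_eq, qV_eq, qW_eq, E0, quad_eq, ps, ta,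
    show 2 * (1 / 2 * ‖pv z.2‖ ^ 2 + 1 / 2 * ‖pw z.2‖ ^ 2 + 0 / 2 * (u2 z.2 ^ 2 + u1 z.2 ^ 2)) =
      ‖pv z.2‖ ^ 2 + ‖pw z.2‖ ^ 2 by ring]
  simp only [dg_apply]
  module

omit hM in
theorem cw : Continuous fun z : (S × unitInterval) × Y => ‖pw z.2‖ :=
  (pw_sm.continuous.comp continuous_snd).norm

theorem LL_zero (ζ : ℂ) : LL M (ζ, 0) = -(1 / 100) := by
  have a : ta 0 = 0 := by simp [ta, ← pvL_apply, ← pwL_apply]
  have := hM.lo (ζ, 0) (by rw [ta_eq, a]; norm_num)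
  rw [LL', ta_eq, a, Ee_z (by norm_num), qV_eq] at this
  simp only [map_zero, sub_zero, norm_zero] at this
  linarith

theorem sd0 {τ : ℝ} (t0 : 0 < τ) (s ε : ℝ) (b : S × unitInterval) :
    Ad.Sd (fun z : (S × unitInterval) × Y => Es (LL M) s ε (z.1.1, vp τ z.1.2 z.2))
      (1 - ε • dg (-(1 / 500)) (999 / 500) 2) (b, 0) := by
  have a : ta 0 = 0 := by simp [ta, ← pvL_apply, ← pwL_apply]
  have w : pw 0 = 0 := pwL.map_zero
  have c : Continuous fun z : (S × unitInterval) × Y => ta z.2 := ta_cont.comp continuous_snd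
  refine Ad.Sd.of_lin (c := fun _ => 0) (L := fun _ => 1 - ε • dg (-(1 / 500)) (999 / 500) 2)
    (x := (b, 0)) continuousAt_const ?_
  filter_upwards [cw.continuousAt.eventually_lt (continuousAt_const (y := 1)) (by simp [w]),
    c.continuousAt.eventually_lt (continuousAt_const (y := 1)) (by simp [a])] with z b c
  rw [vp_lo t0 _ b.le, zero_add]
  exact Es_lo hM s ε (z := (z.1.1, z.2)) c

omit hM in
theorem cont_dgL {T : Type*} [TopologicalSpace T] {a b c : T → ℝ} (ha : Continuous a)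
    (hb : Continuous b) (hc : Continuous c) : Continuous fun t => dg (a t) (b t) (c t) :=
  ((hc.smul continuous_const).add ((ha.sub hc).smul continuous_const)).add
    ((hb.sub hc).smul continuous_const)

omit hM in
theorem sd1 (ε : ℝ) (x : (S × unitInterval) × Y) :
    Ad.Sd (fun z : (S × unitInterval) × Y => E0 ε (dg (1 - z.1.2) 1 (1 - z.1.2) z.2))
      ((fderiv ℝ (E0 ε) (dg (1 - x.1.2) 1 (1 - x.1.2) x.2)).comp (dg (1 - x.1.2) 1 (1 - x.1.2)))
      x :=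
  have c : Continuous fun b : S × unitInterval => 1 - (b.2 : ℝ) := by fun_prop
  sd_lin (E0_sm ε) (cont_dgL c continuous_const c) x

omit hM in
theorem sy1 (ε b : ℝ) {y : Y} (e : pW y = y) (a a' : Y) :
    ⟪fderiv ℝ (E0 ε) y (dg b 1 b a), a'⟫ = ⟪a, fderiv ℝ (E0 ε) y (dg b 1 b a')⟫ := by
  have fx : ∀ a c : ℝ, dg a 1 c y = y := fun a c => by
    rw [← e, dg_apply, pV_pW, pW_pW]; module
  simp only [E0_d, fx, dg_dg, inner_sub_left, inner_sub_right,
    inner_add_left, inner_add_right, real_inner_smul_left, real_inner_smul_right, ← dg_sa _ _ _ y]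
  simp only [dg_sa, real_inner_comm y]
  ring

theorem sym {τ : ℝ} (ht : st (10 * τ) = 2 / 1000000) (s ε : ℝ) (σ : S) (t : unitInterval) (y : Y)
    (h0 : up s (LL M) (σ, y) ≤ 1 / 100) (hy : up s (A.Rs.vgr (LL M)) (σ, y) = 0) :
    up s (LL M) (σ, y) < 0 ∧ vp τ t y = y ∧ ∃ L : Y →L[ℝ] Y, (∀ a a', ⟪L a, a'⟫ = ⟪a, L a'⟫) ∧
      Ad.Sd (fun z : (S × unitInterval) × Y => Es (LL M) s ε (z.1.1, vp τ z.1.2 z.2)) L
        ((σ, t), y) := by
  have t0 := tau_pos ht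
  rcases hM.cr ((lb s σ).1, y) h0 hy with e | ⟨e1, e2, e3⟩
  · obtain rfl : y = 0 := e
    refine ⟨(LL_zero hM (lb s σ).1).trans_lt (by norm_num), vp_lo t0 _ (by simp [← pwL_apply]),
      1 - ε • dg (-(1 / 500)) (999 / 500) 2, fun a a' => ?_, sd0 hM t0 s ε (σ, t)⟩
    simp [inner_sub_left, inner_sub_right, real_inner_smul_left, real_inner_smul_right, dg_sa]
  dsimp only at e2 e3
  have a1 : 4 < ‖pw y‖ ^ 2 := lt_of_not_ge fun a => by
    rw [st_z (by linarith)] at e3; norm_num at e3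
  have a2 : ‖pw y‖ ^ 2 < 4 + τ := lt_of_not_ge fun a => by
    have : st (10 * τ) ≤ st (10 * (‖pw y‖ ^ 2 - 4)) := Real.smoothTransition.monotone (by linarith)
    rw [ht, e3] at this; norm_num at this
  have a3 : 2 < ‖pw y‖ := lt_of_pow_lt_pow_left₀ 2 (norm_nonneg _) (by linarith)
  rw [qW_eq] at e2
  have fx : dg (1 - t) 1 (1 - t) y = y := by
    rw [← e2, dg_apply, pV_pW, pW_pW]; module
  have k := sd1 ε ((σ, t), y)
  dsimp only at k
  rw [fx] at k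
  refine ⟨e1.trans_lt (by norm_num), (vp_hi t0 _ (by linarith) a2.le).trans fx,
    (fderiv ℝ (E0 ε) y).comp (dg (1 - t) 1 (1 - t)), sy1 ε (1 - t) e2, sd_congr k ?_⟩
  filter_upwards [continuousAt_const.eventually_lt cw.continuousAt a3,
    (cw.pow 2).continuousAt.eventually_lt continuousAt_const a2] with z b c
  rw [vp_hi t0 _ (by linarith) c.le]
  refine Es_hi hM s ε (z := (z.1.1, dg (1 - z.1.2) 1 (1 - z.1.2) z.2)) ?_
  dsimp only
  rw [ta, pw_dg, one_smul]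
  nlinarith [sq_nonneg ‖pv (dg (1 - z.1.2) 1 (1 - z.1.2) z.2)‖]

end Crest.Agent.N218.Pc.Sq1
end
end

-- ▼ part N218/Pc/Sq0
section

/-! Row 218, block PIECE (helper84): the squeeze lowers `LL`. -/

set_option autoImplicit false
open Set Filter Topology
open scoped ContDiff RealInnerProductSpace

namespace Crest.Agent.N218.Pc.Sq
open P Ll A.Rs

theorem qW_eq (y : Y) : qW y = pW y := (pW_eq y).symm

theorem vp_eq (τ t : ℝ) (y : Y) : vp τ t y =
    dg (1 - t * chi ‖pw y‖) (1 - t * (1 - cf τ ‖pw y‖)) (1 - t * chi ‖pw y‖) y := by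
  rw [vp, dg_apply, qW_eq]; module

theorem chi_mem (ρ : ℝ) : 0 ≤ chi ρ ∧ chi ρ ≤ 1 :=
  ⟨le_max_left _ _, max_le zero_le_one (min_le_left _ _)⟩
theorem chi_lo {ρ : ℝ} (h : ρ ≤ 9 / 5) : chi ρ = 0 :=
  max_eq_left ((min_le_right _ _).trans (by linarith))

theorem tau_pos {τ : ℝ} (h : st (10 * τ) = 2 / 1000000) : 0 < τ := by
  by_contra a
  rw [st, Real.smoothTransition.zero_of_nonpos (by linarith)] at h
  norm_num at h

theorem rr_sq {τ : ℝ} (h : 0 < τ) : rr τ ^ 2 = 4 + τ := Real.sq_sqrt (by linarith)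
theorem two_lt {τ : ℝ} (h : 0 < τ) : 2 < rr τ := Real.lt_sqrt_of_sq_lt (by linarith)
theorem cf_one {τ ρ : ℝ} (h : 0 < τ) (a : ρ ≤ rr τ) : cf τ ρ = 1 := by
  rw [cf, max_eq_right a, div_self (by linarith [two_lt h])]

theorem vp_cont {τ : ℝ} (h : 0 < τ) : Continuous fun z : ℝ × Y => vp τ z.1 z.2 := by
  have a : Continuous fun z : ℝ × Y => ‖pw z.2‖ := (pw_sm.continuous.comp continuous_snd).norm
  have b : Continuous fun z : ℝ × Y => qW z.2 := by simp only [qW_eq]; fun_prop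
  have c : Continuous fun z : ℝ × Y => chi ‖pw z.2‖ := by unfold chi Pm.cl; fun_prop
  have d : Continuous fun z : ℝ × Y => cf τ ‖pw z.2‖ :=
    continuous_const.div (a.max continuous_const) fun z =>
      ((by linarith [two_lt h] : 0 < rr τ).trans_le (le_max_right _ _)).ne'
  unfold vp
  fun_prop

theorem vp_act (τ t : ℝ) {c : ℂ} (hc : ‖c‖ = 1) (y : Y) : vp τ t (act c y) = act c (vp τ t y) := by
  rw [vp_eq, vp_eq, pw_act, norm_aW hc, dg_act]

theorem Ee_gap {x y : ℝ} (h : x ≤ y) : 1000 * st (10 * x) * (y - x) ≤ Ee y - Ee x :=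
  (convex_Ici x).mul_sub_le_image_sub_of_le_deriv Ee_sm.continuous.continuousOn
    (Ee_sm.differentiable (by simp)).differentiableOn (fun z hz => by
      rw [(Ee_d z).deriv]
      exact mul_le_mul_of_nonneg_left (Real.smoothTransition.monotone
        (by linarith [mem_Ici.1 (interior_subset hz)])) (by norm_num)) x (mem_Ici.2 le_rfl) y h h

variable {M : ℂ × V → V}

theorem LL_hi (hL : Lk M) (ζ : ℂ) {y : Y} (h : 3 ≤ ta y) : LL M (ζ, y) =
    ‖pv y‖ ^ 2 + (u2 y ^ 2 + u1 y ^ 2) - ta y / 1000 - 1 / 100 + Ee (ta y - 4) := by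
  have := hL.hi (ζ, y) h
  simp only [LL', qW_eq, sq_rest, ta_eq] at this
  linarith


theorem dg_le (hL : Lk M) {τ a b : ℝ} (hτ : st (10 * τ) = 2 / 1000000) (ζ : ℂ) (y : Y)
    (W0 : 3 ≤ ‖pw y‖ ^ 2) (a0 : 0 ≤ a) (a1 : a ≤ 1)
    (hb' : b = 1 ∨ (0 ≤ b ∧ b ≤ 1 ∧ 4 + τ ≤ b ^ 2 * ‖pw y‖ ^ 2)) :
    LL M (ζ, dg a b a y) ≤ LL M (ζ, y) ∧ (LL M (ζ, y) ≤ LL M (ζ, dg a b a y) → dg a b a y = y) := by
  have τ0 := tau_pos hτ
  have e1 : ‖pv (dg a b a y)‖ ^ 2 = a ^ 2 * ‖pv y‖ ^ 2 := by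
    rw [pv_dg, norm_smul, mul_pow, Real.norm_eq_abs, sq_abs]
  have e2 : ‖pw (dg a b a y)‖ ^ 2 = b ^ 2 * ‖pw y‖ ^ 2 := by
    rw [pw_dg, norm_smul, mul_pow, Real.norm_eq_abs, sq_abs]
  have pV0 := sq_nonneg ‖pv y‖
  have aV : 0 ≤ a ^ 2 * ‖pv y‖ ^ 2 := by positivity
  have aa : 0 ≤ 1 - a ^ 2 := sub_nonneg.2 (pow_le_one₀ a0 a1)
  have aV' : 0 ≤ (1 - a ^ 2) * ‖pv y‖ ^ 2 := by positivity
  have aU : 0 ≤ (1 - a ^ 2) * u2 y ^ 2 := by positivity
  have aU' : 0 ≤ (1 - a ^ 2) * u1 y ^ 2 := by positivity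
  have key : 0 ≤ (1 - b ^ 2) * ‖pw y‖ ^ 2 ∧ 3 ≤ b ^ 2 * ‖pw y‖ ^ 2 ∧
      2 / 1000 * ((1 - b ^ 2) * ‖pw y‖ ^ 2) ≤ Ee (a ^ 2 * ‖pv y‖ ^ 2 + ‖pw y‖ ^ 2 - 4) -
        Ee (a ^ 2 * ‖pv y‖ ^ 2 + b ^ 2 * ‖pw y‖ ^ 2 - 4) := by
    rcases hb' with q | ⟨q0, q1, q2⟩
    · rw [q]; simpa using W0
    have bb : 0 ≤ (1 - b ^ 2) * ‖pw y‖ ^ 2 :=
      mul_nonneg (sub_nonneg.2 (pow_le_one₀ q0 q1)) (sq_nonneg _)
    refine ⟨bb, by linarith, le_trans ?_ (Ee_gap (by linarith))⟩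
    have := Real.smoothTransition.monotone (show 10 * τ ≤
      10 * (a ^ 2 * ‖pv y‖ ^ 2 + b ^ 2 * ‖pw y‖ ^ 2 - 4) by linarith)
    rw [show Real.smoothTransition (10 * τ) = 2 / 1000000 from hτ] at this
    rw [show a ^ 2 * ‖pv y‖ ^ 2 + ‖pw y‖ ^ 2 - 4 - (a ^ 2 * ‖pv y‖ ^ 2 + b ^ 2 * ‖pw y‖ ^ 2 - 4) =
      (1 - b ^ 2) * ‖pw y‖ ^ 2 by ring]
    exact mul_le_mul_of_nonneg_right (by rw [st]; linarith) bb
  obtain ⟨k1, k2, k3⟩ := key
  have k4 := Ee_mono (show a ^ 2 * ‖pv y‖ ^ 2 + ‖pw y‖ ^ 2 - 4 ≤ ‖pv y‖ ^ 2 + ‖pw y‖ ^ 2 - 4 by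
    linarith)
  rw [LL_hi hL ζ (y := y) (by unfold ta; linarith),
    LL_hi hL ζ (y := dg a b a y) (by unfold ta; rw [e1, e2]; linarith), ta, ta, e1, e2, u2_dg, u1_dg,
    mul_pow, mul_pow]
  refine ⟨by linarith, fun q => ?_⟩
  have z : ∀ x : ℝ, (1 - a ^ 2) * x ^ 2 = 0 → (a - 1) * x = 0 := fun x hx => by
    rcases mul_eq_zero.1 hx with r | r
    · rw [(pow_eq_one_iff_of_nonneg a0 two_ne_zero).1 (by linarith)]; simp
    · rw [pow_eq_zero_iff two_ne_zero |>.1 r, mul_zero]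
  have b1 : b = 1 := by
    rcases hb' with r | ⟨r0, r1, -⟩
    · exact r
    · have : (1 - b ^ 2) * ‖pw y‖ ^ 2 = 0 := by linarith
      rcases mul_eq_zero.1 this with r | r
      · exact (pow_eq_one_iff_of_nonneg r0 two_ne_zero).1 (by linarith)
      · linarith
  refine Y_ext' ?_ (by rw [pw_dg, b1, one_smul]) ?_ ?_
  · rw [pv_dg, ← sub_eq_zero, ← norm_eq_zero]
    have := z ‖pv y‖ (by linarith)
    rw [show a • pv y - pv y = (a - 1) • pv y by module, norm_smul, Real.norm_eq_abs,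
      abs_of_nonpos (by linarith)]
    linarith
  · rw [u2_dg]; linarith [z (u2 y) (by linarith)]
  · rw [u1_dg]; linarith [z (u1 y) (by linarith)]

theorem vp_le (hL : Lk M) {τ t : ℝ} (hτ : st (10 * τ) = 2 / 1000000) (t0 : 0 ≤ t) (t1 : t ≤ 1)
    (ζ : ℂ) (y : Y) : LL M (ζ, vp τ t y) ≤ LL M (ζ, y) ∧
      (LL M (ζ, y) ≤ LL M (ζ, vp τ t y) → vp τ t y = y) := by
  have τ0 := tau_pos hτ
  have r2 := two_lt τ0
  rcases le_or_gt ‖pw y‖ (9 / 5) with h | h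
  · have : vp τ t y = y := by simp [vp, chi_lo h, cf_one τ0 (h.trans (by linarith))]
    rw [this]; exact ⟨le_rfl, fun _ => rfl⟩
  rw [vp_eq]
  obtain ⟨c0, c1⟩ := chi_mem ‖pw y‖
  refine dg_le hL hτ ζ y (by nlinarith) (sub_nonneg.2 (mul_le_one₀ t1 c0 c1))
    (sub_le_self _ (mul_nonneg t0 c0)) ?_
  rcases le_total ‖pw y‖ (rr τ) with q | q
  · left; rw [cf_one τ0 q]; ring
  right
  have e : cf τ ‖pw y‖ * ‖pw y‖ = rr τ := by
    rw [cf, max_eq_left q, div_mul_cancel₀ _ (by linarith)]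
  have f0 : 0 ≤ cf τ ‖pw y‖ := nonneg_of_mul_nonneg_left (by linarith) (by linarith : 0 < ‖pw y‖)
  have f1 : cf τ ‖pw y‖ ≤ 1 := le_of_mul_le_mul_right (by linarith) (by linarith : 0 < ‖pw y‖)
  have f2 : cf τ ‖pw y‖ ≤ 1 - t * (1 - cf τ ‖pw y‖) := by
    linarith [mul_le_of_le_one_left (sub_nonneg.2 f1) t1]
  refine ⟨f0.trans f2, sub_le_self _ (mul_nonneg t0 (sub_nonneg.2 f1)), ?_⟩
  rw [← rr_sq τ0, ← e, ← mul_pow]
  exact pow_le_pow_left₀ (by positivity) (mul_le_mul_of_nonneg_right f2 (norm_nonneg _)) 2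

end Crest.Agent.N218.Pc.Sq
end

-- ▼ part N218/Pc/Sq2
section

/-! Row 218, block PIECE (helper84): switching on the squeeze. -/

set_option autoImplicit false
open Set Filter Topology
open scoped ContDiff RealInnerProductSpace

namespace Crest.Agent.N218.Pc
open P Sk Gd

/-- the derivative at the critical points -/
def SYM : Prop := ∀ (M : ℂ × P.V → P.V) (τ : ℝ), Lk M → st (10 * τ) = 2 / 1000000 →
  ∀ (s ε : ℝ) (σ : S) (t : unitInterval) (y : Y), up s (LL M) (σ, y) ≤ 1 / 100 →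
    up s (A.Rs.vgr (LL M)) (σ, y) = 0 → up s (LL M) (σ, y) < 0 ∧ vp τ t y = y ∧
      ∃ L : Y →L[ℝ] Y, (∀ a a', ⟪L a, a'⟫ = ⟪a, L a'⟫) ∧
        Ad.Sd (fun z : (S × unitInterval) × Y => Es (LL M) s ε (z.1.1, vp τ z.1.2 z.2)) L ((σ, t), y)

theorem sqz0 (hS : SYM) : SQZ := by
  intro M s f w τ hM hw h hτ
  have sm := hM.lv.sm
  have τ0 := Sq.tau_pos hτ
  obtain ⟨R, hR⟩ := hM.lv.bdd
  obtain ⟨k, C, hC, hk⟩ := A.Rs.exists_dn sm (w := 1 / 100) (R := R) (isCompact_range (lb_ct s))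
    (fun x _ y a b => hM.lv.reg x y a b) (fun x _ y a => hR x y a)
  have uc : Continuous (up s (LL M)) :=
    sm.continuous.comp (((lb_ct s).comp continuous_fst).prodMk continuous_snd)
  have inn : ∀ z, LL M ((lb s z.1).1, f z) ≤ w := h.inn
  have ro : ∀ t ∈ Icc (0 : ℝ) 1, ∀ z : S × Y, LL M ((lb s z.1).1, k (t, (lb s z.1).1, f z)) =
      LL M ((lb s z.1).1, f z) - t * max (LL M ((lb s z.1).1, f z)) 0 := fun t ht z =>
    hk.ro t ht _ (mem_range_self z.1) (f z) ((inn z).trans hw)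
  have le : ∀ t ∈ Icc (0 : ℝ) 1, ∀ z : S × Y, LL M ((lb s z.1).1, k (t, (lb s z.1).1, f z)) ≤
      LL M ((lb s z.1).1, f z) := fun t ht z =>
    (ro t ht z).trans_le (sub_le_self _ (mul_nonneg ht.1 (le_max_right _ _)))
  have id : ∀ t, ∀ z : S × Y, up s (LL M) z ≤ 0 → k (t, (lb s z.1).1, f z) = z.2 := fun t z hz => by
    rw [h.id z hz]; exact hk.id _ _ _ hz
  have ev : ∀ t, Ev fun z : S × Y => k (t, (lb s z.1).1, f z) := fun t σ σ' c η r => by
    show k (t, (lb s σ').1, f (σ', act c η)) = act c (k (t, (lb s σ).1, f (σ, η)))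
    rw [h.eq σ σ' c η r]
    exact hk.eq _ _ (actL (rl_norm r)) (fun y => by
      show LL M (_, act c y) = _
      rw [rl_lb s r, hM.lv.inv c _ _ (rl_norm r)]) t _
  have kc : ∀ {Z : Type} [TopologicalSpace Z] {t : Z → ℝ} {z : Z → S × Y}, Continuous t →
      Continuous z → Continuous fun x => k (t x, (lb s (z x).1).1, f (z x)) := fun ht hz =>
    hk.co.comp (ht.prodMk (((lb_ct s).comp (continuous_fst.comp hz)).prodMk (h.ct.comp hz)))
  refine ⟨fun z => k (1, (lb s z.1).1, f z), ⟨kc continuous_const continuous_id, ev 1, id 1,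
    fun z => (ro 1 ⟨zero_le_one, le_rfl⟩ z).trans_le (by rw [one_mul]; exact sub_nonpos.2 (le_max_left _ _))⟩, ?_⟩
  obtain ⟨ε₀, e0, ly⟩ := hM.ly s
  refine ⟨ε₀, e0, fun ε e1 e2 => ?_⟩
  have v0 : Continuous fun p : (S × unitInterval) × Y => vp τ p.1.2 p.2 :=
    (Sq.vp_cont τ0).comp' (f := fun p : (S × unitInterval) × Y => ((p.1.2 : ℝ), p.2)) (by fun_prop)
  have vc : Continuous fun p : (S × unitInterval) × Y => (p.1.1, vp τ p.1.2 p.2) :=
    continuous_fst.fst.prodMk v0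
  obtain ⟨g, gc, hg⟩ : ∃ g : (S × unitInterval) × Y → Y, Continuous g ∧
      ∀ p, g p = k (p.1.2, (lb s p.1.1).1, f (p.1.1, vp τ p.1.2 p.2)) :=
    ⟨_, kc (t := fun p : (S × unitInterval) × Y => (p.1.2 : ℝ)) (by fun_prop) vc, fun _ => rfl⟩
  have g0 : ∀ p, LL M ((lb s p.1.1).1, g p) ≤
      LL M ((lb s p.1.1).1, f (p.1.1, vp τ p.1.2 p.2)) := fun p => by
    rw [hg]; exact le p.1.2 p.1.2.2 (p.1.1, vp τ p.1.2 p.2)
  have gw : ∀ p, LL M ((lb s p.1.1).1, g p) ≤ w := fun p =>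
    (g0 p).trans (inn (p.1.1, vp τ p.1.2 p.2))
  have gi : ∀ p : (S × unitInterval) × Y, up s (LL M) (p.1.1, vp τ p.1.2 p.2) ≤ 0 →
      g p = vp τ p.1.2 p.2 := fun p a => (hg p).trans (id p.1.2 (p.1.1, vp τ p.1.2 p.2) a)
  have g3 : ∀ p, ‖g p‖ ≤ 3 := fun p => hM.bd ((lb s p.1.1).1, g p) ((gw p).trans hw)
  have st := fun p : (S × unitInterval) × Y =>
    ly ε e1.le e2 (p.1.1, g p) ((g3 p).trans (by norm_num))
  have dn : ∀ p : (S × unitInterval) × Y, LL M ((lb s p.1.1).1, Es (LL M) s ε (p.1.1, g p)) ≤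
      LL M ((lb s p.1.1).1, g p) := fun p =>
    (st p).2.2.1.trans (sub_le_self _ (mul_nonneg (half_pos e1).le (sq_nonneg _)))
  have gl : ∀ p : (S × unitInterval) × Y, LL M ((lb s p.1.1).1, p.2) ≤ w →
      LL M ((lb s p.1.1).1, g p) ≤ LL M ((lb s p.1.1).1, p.2) ∧
      (LL M ((lb s p.1.1).1, p.2) ≤ LL M ((lb s p.1.1).1, g p) → g p = p.2) := fun p a => by
    obtain ⟨v1, v2⟩ := Sq.vp_le hM hτ p.1.2.2.1 p.1.2.2.2 (lb s p.1.1).1 p.2
    rcases le_or_gt (LL M ((lb s p.1.1).1, vp τ p.1.2 p.2)) 0 with c | c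
    · rw [gi p c]; exact ⟨v1, v2⟩
    · have d := ((g0 p).trans_lt (h.lt (p.1.1, vp τ p.1.2 p.2) c (v1.trans a))).trans_le v1
      exact ⟨d.le, fun q => absurd q d.not_ge⟩
  have fx : ∀ p : (S × unitInterval) × Y, LL M ((lb s p.1.1).1, p.2) ≤ w →
      LL M ((lb s p.1.1).1, p.2) ≤ LL M ((lb s p.1.1).1, Es (LL M) s ε (p.1.1, g p)) →
      g p = p.2 ∧ up s (A.Rs.vgr (LL M)) (p.1.1, p.2) = 0 := fun p a c => by
    have i := (gl p a).2 (c.trans (dn p))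
    have q : LL M ((lb s p.1.1).1, Es (LL M) s ε (p.1.1, g p)) ≤ LL M ((lb s p.1.1).1, g p) -
      ε / 2 * ‖up s (A.Rs.vgr (LL M)) (p.1.1, g p)‖ ^ 2 := (st p).2.2.1
    rw [i] at q c
    have z : ‖up s (A.Rs.vgr (LL M)) (p.1.1, p.2)‖ ^ 2 ≤ 0 :=
      le_of_mul_le_mul_left (by linarith) (half_pos e1)
    exact ⟨i, norm_eq_zero.1 (pow_eq_zero_iff two_ne_zero |>.1 (z.antisymm (sq_nonneg _)))⟩
  refine ⟨fun p => Es (LL M) s ε (p.1.1, g p), ⟨es_ct sm s continuous_const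
    (continuous_fst.fst.prodMk gc), ⟨4, fun p => ?_⟩, fun b => lyap
      (g := fun y => LL M ((lb s b.1).1, y)) (K := fun y => LL M ((lb s b.1).1, y) ≤ w)
      (fun y => (dn (b, y)).trans (gw (b, y))) (fun y a => (dn (b, y)).trans (gl (b, y) a).1)
      fun y a c => ?_, fun b y e => ?_⟩, fun t σ σ' c η r => ?_, fun z => ?_, fun z => ?_⟩
  · linarith [norm_le_norm_sub_add (Es (LL M) s ε (p.1.1, g p)) (g p), (st p).1, g3 p]
  · obtain ⟨i, z⟩ := fx (b, y) a c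
    simp only [i, Es, z, smul_zero, sub_zero]
  · obtain ⟨σ, t⟩ := b
    have e' : Es (LL M) s ε (σ, g ((σ, t), y)) = y := e
    have a : LL M ((lb s σ).1, y) ≤ w := by
      have := (dn ((σ, t), y)).trans (gw ((σ, t), y))
      rwa [e'] at this
    obtain ⟨n, v, L, l1, l2⟩ := hS M τ hM hτ s ε σ t y (a.trans hw)
      (fx ((σ, t), y) a (by rw [e'])).2
    refine ⟨L, l1, Ps.sd_congr l2 ?_⟩
    have c : Continuous fun p : (S × unitInterval) × Y => up s (LL M) (p.1.1, vp τ p.1.2 p.2) :=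
      uc.comp' vc
    have d : ∀ᶠ p : (S × unitInterval) × Y in 𝓝 ((σ, t), y),
        up s (LL M) (p.1.1, vp τ p.1.2 p.2) < 0 :=
      (isOpen_lt c continuous_const).mem_nhds (show up s (LL M) (σ, vp τ t y) < 0 by rwa [v])
    refine d.mono fun p hp => ?_
    exact congrArg (fun v => Es (LL M) s ε (p.1.1, v)) (gi p hp.le)
  · have : g ((σ', t), act c η) = act c (g ((σ, t), η)) := by
      rw [hg, hg]
      dsimp only
      rw [Sq.vp_act τ t (rl_norm r)]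
      exact ev t σ σ' c (vp τ t η) r
    show Es _ _ _ (σ', g ((σ', t), act c η)) = _
    rw [this]
    exact es_ev sm hM.lv.inv s _ σ σ' c _ r
  · simp [hg, vp, hk.ze]
  · simp [hg, f1]

end Crest.Agent.N218.Pc
end

-- ▼ part N218/Pc/Sqz
section

/-! Row 218, block PIECE (helper84): the squeeze leaf. -/

namespace Crest.Agent.N218.Pc

theorem sqz : SQZ := sqz0 fun _ _ hM ht s ε σ t y h0 hy => Sq1.sym hM ht s ε σ t y h0 hy

end Crest.Agent.N218.Pc
end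

-- ▼ part N218/Sk/Al3

/-! Row 218 (helper40): everything but the abstract localisation. -/

set_option autoImplicit false

noncomputable section

namespace Crest.Agent.N218.Sk

open scoped Manifold ContDiff in
open Crest.GeometryTopology.CotangentSpheres in
theorem last (h : D6.LOCA) :
    ∃ m : ℕ, Odd m ∧ ∃ ι : Sph 9 × Sph m → Amb m, IsExactLagEmbedding m ι ∧
      ¬ ∃ F : ℝ → Sph 9 × Sph m → Amb m,
          ContMDiff (𝓘(ℝ, ℝ).prod ((𝓡 9).prod (𝓡 m))) 𝓘(ℝ, Amb m) ∞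
              (fun p : ℝ × (Sph 9 × Sph m) => F p.1 p.2) ∧
            (∀ s, IsExactLagEmbedding m (F s)) ∧ F 0 = zeroSection m ∧
            Set.range (F 1) = Set.range ι :=
  all exa0 (d6t0 h (D6.link1_of D6.Lk.l1b) D6.Lk.cm1) (piece0 Pc.sqz) d3t0

end Crest.Agent.N218.Sk

end
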