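import Crest.Agent.N218.C.Nn
import Crest.Agent.N218.C.Bl
import Crest.Agent.N218.C.Diag
import Crest.Agent.N218.Sk.Top
import Crest.Agent.N218.C.Stp_Mg
import Crest.Agent.N218.A.ParI
import Crest.Agent.N218.C.Toe
import Crest.Agent.N218.A.Emb
import Crest.Agent.N218.Sk.Hom
import Crest.Agent.N218.In.Emb
import Crest.Agent.N218.D7.St2
import Crest.Agent.N218.D3.Defs
import Crest.Agent.N218.P.Shape

-- ▼ part N218/C/Next
section

/-! # N218/C/Next (helper48): the start and the step of the chain -/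

set_option autoImplicit false

open Set Filter Topology Metric
open scoped ContDiff

noncomputable section

namespace Crest.Agent.N218.C

section
variable {A B : Type*} [NormedAddCommGroup A] [NormedSpace ℝ A] [NormedAddCommGroup B]
  [NormedSpace ℝ B]

theorem lp_iff {f : A → B} : Lp f ↔ BL f := by
  refine ⟨fun ⟨s, C, a, b⟩ => ⟨s, C, C.2, fun x => norm_fderiv_le_of_lipschitz ℝ a,
    fun x y => b.norm_sub_le x y⟩, fun h => ?_⟩
  obtain ⟨C, c0, c1, c2⟩ := h.bd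
  exact ⟨h.sm, ⟨C, c0⟩, lipschitzWith_of_nnnorm_fderiv_le (h.sm.differentiable (by simp))
    fun x => c1 x, lipschitzWith_iff_norm_sub_le.2 c2⟩

theorem bd_iff {f : A → B} : Bd f ↔ BL f ∧ Bv f := and_congr lp_iff Iff.rfl

end

theorem us_unit {q v : V} (h1 : ‖q.1‖ = 1) (h2 : ‖q.2‖ = 1) (hv : ‖v‖ ≤ 1 / 4) : q - v ∈ Us := by
  have a := abs_le.1 ((abs_norm_sub_norm_le (q - v).1 q.1).trans
    (by simpa using (norm_fst_le v).trans hv : _ ≤ (1 / 4 : ℝ)))
  have b := abs_le.1 ((abs_norm_sub_norm_le (q - v).2 q.2).trans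
    (by simpa using (norm_snd_le v).trans hv : _ ≤ (1 / 4 : ℝ)))
  exact ⟨⟨by linarith, by linarith⟩, by linarith, by linarith⟩

theorem shell_nhds {a b : ℝ} (ha : a < 1) (hb : 1 < b) (q : V) (h1 : ‖q.1‖ = 1) (h2 : ‖q.2‖ = 1) :
    {q : V | (a < ‖q.1‖ ∧ ‖q.1‖ < b) ∧ (a < ‖q.2‖ ∧ ‖q.2‖ < b)} ∈ 𝓝 q :=
  (((isOpen_lt continuous_const continuous_fst.norm).inter
    (isOpen_lt continuous_fst.norm continuous_const)).inter
    ((isOpen_lt continuous_const continuous_snd.norm).inter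
      (isOpen_lt continuous_snd.norm continuous_const))).mem_nhds
    ⟨⟨ha.trans_eq h1.symm, h1.trans_lt hb⟩, ha.trans_eq h2.symm, h2.trans_lt hb⟩

theorem base_of (hN : NNC) (hb : Bd nn) (hu : ∀ q ∈ Us, ‖(nn q).1‖ = 1 ∧ ‖(nn q).2‖ = 1)
    (hn : ∀ q ∈ Us, nn (nn q) = nn q) : BASE := by
  intro G0 D0 L hL h
  obtain ⟨n1, n2⟩ := bd_iff.1 hb
  refine ⟨PUnit, inferInstance, inferInstance, inferInstance, 0, fun x => nn x.1, fun _ => 0,
    fun _ _ => rfl, fun _ _ => rfl, bd_iff.2 ⟨n1.comp BL.id.fst, n2.comp _⟩,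
    bd_iff.2 ⟨.const 0, 0, by simp⟩, fun q hq _ => ?_, hn, ?_⟩
  · simpa using us_unit (v := 0) (hu q hq).1 (hu q hq).2 (by simp)
  · have := (hN Y G0 D0 Us L hL (shell_nhds (by norm_num) (by norm_num)) h).eqv
      (ContinuousLinearEquiv.prodUnique ℝ Y PUnit)
    refine (congrArg (fun G => Gen G _ Us (Lc L)) (funext fun x => ?_)).mp this
    simp

theorem next_of (hN : NNC) (hb : Bd nn) (hu : ∀ q ∈ Us, ‖(nn q).1‖ = 1 ∧ ‖(nn q).2‖ = 1)
    (hn : ∀ q ∈ Us, nn (nn q) = nn q) : NEXT := by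
  rintro G0 D0 L L' hL ⟨W, w0, w1, w2, w3, w4, w5⟩ ⟨Z, _, _, _, β, b, η, c⟩
  obtain ⟨n1, -⟩ := bd_iff.1 hb
  obtain ⟨b1, b2⟩ := bd_iff.1 c.bb
  obtain ⟨e1, e2⟩ := bd_iff.1 c.be
  let φ : ContDiffBump (0 : V) := ⟨3 / 16, 1 / 4, by norm_num, by norm_num⟩
  set χ : V → V := fun v => φ v • v with hχ
  have χs : ContDiff ℝ ∞ χ := φ.contDiff.smul contDiff_id
  have χb : BL χ := .of_cpt χs φ.hasCompactSupport.smul_right
  have χ1 : ∀ v, ‖v‖ < 3 / 16 → χ v = v := fun v h => by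
    simp only [hχ, φ.one_of_mem_closedBall (mem_closedBall_zero_iff.2 h.le), one_smul]
  have χ2 : ∀ v, ‖χ v‖ ≤ 1 / 4 := fun v => by
    simp only [hχ, norm_smul, Real.norm_eq_abs, abs_of_nonneg φ.nonneg]
    rcases le_total ‖v‖ (1 / 4) with h | h
    · nlinarith [φ.le_one (x := v), norm_nonneg v, φ.nonneg (x := v)]
    · rw [φ.zero_of_le_dist (by rw [dist_zero_right]; exact h)]; norm_num
  have nU : ∀ q ∈ Us, ∀ v, nn q - χ v ∈ Us := fun q hq v => us_unit (hu q hq).1 (hu q hq).2 (χ2 v)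
  have g0 := c.gen.step (U' := {q : V | (3 / 4 < ‖q.1‖ ∧ ‖q.1‖ < 5 / 4) ∧
      (3 / 4 < ‖q.2‖ ∧ ‖q.2‖ < 5 / 4)}) χs w0 (by norm_num) (by norm_num) χ1 w2 w3
    (fun Q hQ v hv => by
      have a := abs_le.1 ((abs_norm_sub_norm_le (Q - v).1 Q.1).trans
        (by simpa using (norm_fst_le v).trans hv : _ ≤ (1 / 8 : ℝ)))
      have b := abs_le.1 ((abs_norm_sub_norm_le (Q - v).2 Q.2).trans
        (by simpa using (norm_snd_le v).trans hv : _ ≤ (1 / 8 : ℝ)))
      obtain ⟨⟨h1, h2⟩, h3, h4⟩ := hQ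
      exact ⟨⟨by linarith, by linarith⟩, by linarith, by linarith⟩) w4
    fun z' h ⟨⟨h1, h2⟩, h3, h4⟩ =>
      w5 z' h ⟨⟨by linarith, by linarith⟩, by linarith, by linarith⟩
  have g1 := (hN _ _ _ _ L' hL (shell_nhds (by norm_num) (by norm_num)) g0).eqv
    (ContinuousLinearEquiv.prodAssoc ℝ Y Z (V × Vd)).symm
  have t : BL fun x : V × Z × V × Vd => (nn x.1 - χ x.2.2.1, x.2.1) :=
    ((n1.comp BL.id.fst).sub (χb.comp BL.id.snd.snd.fst)).prodMk BL.id.snd.fst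
  refine ⟨Z × V × Vd, inferInstance, inferInstance, inferInstance, hyp V β,
    fun x => b (nn x.1 - χ x.2.2.1, x.2.1),
    fun x => η (nn x.1 - χ x.2.2.1, x.2.1) + W (nn x.1, x.2.2.2), hyp_symm c.sy, hyp_nd c.nd,
    bd_iff.2 ⟨b1.comp t, b2.comp _⟩,
    bd_iff.2 ⟨(e1.comp t).add ((BL.of_d2 w0 (by norm_num) (by norm_num) w2 w3).comp
      ((n1.comp BL.id.fst).prodMk BL.id.snd.snd.snd)),
      (e2.comp _).add ((Bv.of_cpt w0.continuous w1).comp _)⟩,
    fun q hq z => c.bU _ (nU q hq _) _, fun q hq => ?_, ?_⟩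
  · have := nU q hq 0
    simp only [Prod.snd_zero, Prod.fst_zero, χ1 0 (by simp), sub_zero] at this ⊢
    rw [c.b0 _ this, hn q hq]
  · refine (congrArg (fun G => Gen G _ Us (Lc L')) (funext fun x => ?_)).mp g1
    show G0 (b (nn x.1 - χ x.2.2.2.1, x.2.2.1), x.2.1) + 1 / 2 * β x.2.2.1 x.2.2.1 +
      η (nn x.1 - χ x.2.2.2.1, x.2.2.1) + x.2.2.2.2 x.2.2.2.1 + W (nn x.1, x.2.2.2.2) = _
    rw [hyp_apply]
    ring

theorem base : BASE := base_of nnc nn_bd (fun _ h => nn_norm h) fun _ h => nn_nn h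

theorem next : NEXT := next_of nnc nn_bd (fun _ h => nn_norm h) fun _ h => nn_nn h

end Crest.Agent.N218.C

end
end

-- ▼ part N218/Sk/Ac
section

/-!
# Row 218 (helper86): blocks (A0) and (C) in the form of the top cut
-/

set_option autoImplicit false
open Set

namespace Crest.Agent.N218.Sk

theorem ac_of (h : A.AC) : AC := fun Φ => by
  obtain ⟨ι, e, h⟩ := h Φ
  refine ⟨ι, e, fun F a b c => ?_⟩
  obtain ⟨M, c, B, ξ, γ, gr, zz, k, c', d, g, -, n, i, j⟩ := h F a b c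
  have o := Φ.ho n
  have u : ∀ {x : C.X}, ‖x‖ = 1 → x ∈ Metric.sphere (0 : C.X) 1 := fun hx => by simpa using hx
  exact ⟨M, c, B, ξ, γ, gr, zz, k, A.Rs.rsOf Φ.r k, d, g, n.co, o.co, fun x y _ => n.ze x y,
    fun s x y _ => n.id s x y, fun s hs x y hx => n.ro s hs x (u hx) y, fun x y _ _ => o.ze x y,
    fun x y hx => o.on x (u hx) y, fun s x y hx => o.id s x (u hx) y,
    fun s hs x y hx => o.le s hs x (u hx) y, fun s hs x y z => i s hs x z y,
    fun s hs x y z => j s hs x z y⟩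

/-- block (C), unconditional -/
theorem cm2' : C.CM2 := C.cm2 C.cone C.near C.base C.next C.toe2

theorem aac (hL : A.LAG) : A.AC := A.ac_of hL A.par cm2'

theorem ac (hL : A.LAG) : AC := ac_of (aac hL)

end Crest.Agent.N218.Sk
end

-- ▼ part N218/A/Lag
section

/-!
# Row 218, block A0 (helper84): the exact Lagrangian embedding of a parametrised critical set
-/

set_option autoImplicit false

open scoped ContDiff RealInnerProductSpace Topology Manifold
open Set Filter Function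
open Crest.GeometryTopology.CotangentSpheres

namespace Crest.Agent.N218.A

namespace Lg

/-- the inclusion of `Q` -/
def jq (l : Sph 9 × Sph 11) : VQ := (l.1, l.2)

theorem jq_unit (l : Sph 9 × Sph 11) : UnitQ (jq l) :=
  ⟨mem_sphere_zero_iff_norm.1 l.1.2, mem_sphere_zero_iff_norm.1 l.2.2⟩

instance fact_eu (k : ℕ) : Fact (Module.finrank ℝ (Eu k) = k + 1) := ⟨by simp⟩

theorem jq_smooth : ContMDiff ((𝓡 9).prod (𝓡 11)) 𝓘(ℝ, VQ) ∞ jq :=
  (contMDiff_coe_sphere.comp contMDiff_fst).prodMk_space (contMDiff_coe_sphere.comp contMDiff_snd)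

/-- its differential -/
noncomputable def dj (l : Sph 9 × Sph 11) (w : TangentSpace ((𝓡 9).prod (𝓡 11)) l) : VQ :=
  mfderiv ((𝓡 9).prod (𝓡 11)) 𝓘(ℝ, VQ) jq l w

theorem mf {W : Type*} [NormedAddCommGroup W] [NormedSpace ℝ W] {f : VQ → W}
    (hf : Differentiable ℝ f) (l : Sph 9 × Sph 11) (w : TangentSpace ((𝓡 9).prod (𝓡 11)) l) :
    mfderiv ((𝓡 9).prod (𝓡 11)) 𝓘(ℝ, W) (fun l => f (jq l)) l w = fderiv ℝ f (jq l) (dj l w) := by
  have := mfderiv_comp l (hf (jq l)).mdifferentiableAt (jq_smooth.mdifferentiableAt (by simp))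
  rw [mfderiv_eq_fderiv] at this
  exact DFunLike.congr_fun this w

theorem mf_eq {W : Type*} [NormedAddCommGroup W] [NormedSpace ℝ W] {f g : VQ → W}
    (hf : Differentiable ℝ f) (hg : Differentiable ℝ g) (h : ∀ l, UnitQ l → f l = g l)
    (l : Sph 9 × Sph 11) (w : TangentSpace ((𝓡 9).prod (𝓡 11)) l) :
    fderiv ℝ f (jq l) (dj l w) = fderiv ℝ g (jq l) (dj l w) := by
  rw [← mf hf, ← mf hg, show (fun l => f (jq l)) = fun l => g (jq l) from
    funext fun l => h _ (jq_unit l)]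
  rfl

theorem dj_zero {l : Sph 9 × Sph 11} {w : TangentSpace ((𝓡 9).prod (𝓡 11)) l}
    (h : dj l w = 0) : w = 0 := by
  have h1 := mf (f := Prod.fst) differentiable_fst l w
  have h2 := mf (f := Prod.snd) differentiable_snd l w
  rw [h, map_zero] at h1 h2
  have k1 := mfderiv_comp (I := (𝓡 9).prod (𝓡 11)) l
    ((contMDiff_coe_sphere (E := Eu 9) (m := ∞) (n := 9)).mdifferentiableAt (x := l.1) (by simp))
    (mdifferentiableAt_fst (x := l))
  have k2 := mfderiv_comp (I := (𝓡 9).prod (𝓡 11)) l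
    ((contMDiff_coe_sphere (E := Eu 11) (m := ∞) (n := 11)).mdifferentiableAt (x := l.2) (by simp))
    (mdifferentiableAt_snd (x := l))
  rw [mfderiv_fst] at k1
  rw [mfderiv_snd] at k2
  refine Prod.ext (mfderiv_coe_sphere_injective (n := 9) l.1 ?_)
    (mfderiv_coe_sphere_injective (n := 11) l.2 ?_)
  · exact ((DFunLike.congr_fun k1 w).symm.trans h1).trans (map_zero _).symm
  · exact ((DFunLike.congr_fun k2 w).symm.trans h2).trans (map_zero _).symm

variable (G : VQ × Eu 9 → ℝ)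

/-- the gradient in `θ` -/
noncomputable def g1 (z : VQ × Eu 9) : Eu 9 := (InnerProductSpace.toDual ℝ (Eu 9)).symm
  ((fderiv ℝ G z).comp ((ContinuousLinearMap.inl ℝ VQ (Eu 9)).comp (.inl ℝ (Eu 9) (Eu 11))))

/-- the gradient in `x` -/
noncomputable def g2 (z : VQ × Eu 9) : Eu 11 := (InnerProductSpace.toDual ℝ (Eu 11)).symm
  ((fderiv ℝ G z).comp ((ContinuousLinearMap.inl ℝ VQ (Eu 9)).comp (.inr ℝ (Eu 9) (Eu 11))))

/-- the tangential gradient -/
noncomputable def tg (z : VQ × Eu 9) : VQ :=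
  (g1 G z - ⟪z.1.1, g1 G z⟫ • z.1.1, g2 G z - ⟪z.1.2, g2 G z⟫ • z.1.2)

theorem tg_cov (z : VQ × Eu 9) : Cov G z (tg G z) := by
  rintro ⟨a, b⟩ ⟨ha, hb⟩
  simp only [tg, inner_sub_left, real_inner_smul_left] at ha hb ⊢
  rw [ha, hb, show (((a, b), 0) : VQ × Eu 9) = ((a, 0), 0) + ((0, b), 0) by simp, map_add]
  simp [g1, g2]

theorem tg_mem {z : VQ × Eu 9} (h : UnitQ z.1) : InCotangent 11 (z.1, tg G z) := by
  refine ⟨h.1, h.2, ?_, ?_⟩
  · simp only [tg, inner_sub_right, inner_smul_right, real_inner_self_eq_norm_sq, h.1]; ring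
  · simp only [tg, inner_sub_right, inner_smul_right, real_inner_self_eq_norm_sq, h.2]; ring

variable {G}

theorem tg_smooth (hG : ContDiff ℝ ∞ G) : ContDiff ℝ ∞ (tg G) := by
  have hd : ContDiff ℝ ∞ (fderiv ℝ G) := hG.fderiv_right (m := ∞) (by simp)
  have h1 : ContDiff ℝ ∞ (g1 G) :=
    (InnerProductSpace.toDual ℝ (Eu 9)).symm.toContinuousLinearEquiv.contDiff.comp
      (hd.clm_comp contDiff_const)
  have h2 : ContDiff ℝ ∞ (g2 G) :=
    (InnerProductSpace.toDual ℝ (Eu 11)).symm.toContinuousLinearEquiv.contDiff.comp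
      (hd.clm_comp contDiff_const)
  exact (h1.sub ((contDiff_fst.fst.inner ℝ h1).smul contDiff_fst.fst)).prodMk
    (h2.sub ((contDiff_fst.snd.inner ℝ h2).smul contDiff_fst.snd))

theorem split {W : Type*} [NormedAddCommGroup W] [NormedSpace ℝ W] (A : VQ × Eu 9 →L[ℝ] W)
    (v : VQ) (e : Eu 9) : A (v, e) = A (v, 0) + A (0, e) := by
  rw [← map_add]; simp

theorem d2_tan (hG : ContDiff ℝ ∞ G) {q v : VQ} {y z : Eu 9} (hv : Tan q v)
    (h : fderiv ℝ (tg G) (q, y) (0, z) = 0) : fderiv ℝ (fderiv ℝ G) (q, y) (0, z) (v, 0) = 0 := by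
  have h1 := has_line2 hG (q, y) (0, z) (v, 0) 0
  have h2 := has_line ((tg_smooth hG).differentiable (by simp)) (q, y) (0, z) 0
  simp only [zero_smul, add_zero] at h1 h2
  rw [h] at h2
  have h3 := (((ContinuousLinearMap.fst ℝ (Eu 9) (Eu 11)).hasFDerivAt.comp_hasDerivAt 0 h2).inner ℝ
    (hasDerivAt_const 0 v.1)).add (((ContinuousLinearMap.snd ℝ (Eu 9) (Eu 11)).hasFDerivAt.comp_hasDerivAt
      0 h2).inner ℝ (hasDerivAt_const 0 v.2))
  simpa using h1.unique (h3.congr_of_eventuallyEq (Eventually.of_forall fun t =>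
    tg_cov G _ v (by simpa using hv)))

end Lg

open Lg in
theorem lag : LAG := by
  intro G D σ τ hG hU hN hσ hτ h1 h2
  have dG := hG.differentiable (by simp)
  have dσ := hσ.differentiable (by simp)
  have dτ := hτ.differentiable (by simp)
  have sΛ : ContDiff ℝ ∞ fun l => (((σ l).1, tg G (σ l)) : Amb 11) :=
    hσ.fst.prodMk ((tg_smooth hG).comp hσ)
  have d1 : ∀ l u, fderiv ℝ (fun l => (σ l).1.1) l u = (fderiv ℝ σ l u).1.1 := fun l u => by
    rw [(dσ l).hasFDerivAt.fst.fst.fderiv]; rfl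
  have d2 : ∀ l u, fderiv ℝ (fun l => (σ l).1.2) l u = (fderiv ℝ σ l u).1.2 := fun l u => by
    rw [(dσ l).hasFDerivAt.fst.snd.fderiv]; rfl
  have tan : ∀ l w, Tan (σ (jq l)).1 (fderiv ℝ σ (jq l) (dj l w)).1 := fun l w => by
    have a := mf_eq (dσ.fst.fst.norm_sq ℝ) (differentiable_const 1)
      (fun l hl => by rw [(h1 l hl).1.1]; norm_num) l w
    have b := mf_eq (dσ.fst.snd.norm_sq ℝ) (differentiable_const 1)
      (fun l hl => by rw [(h1 l hl).1.2]; norm_num) l w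
    rw [(dσ _).hasFDerivAt.fst.fst.norm_sq.fderiv] at a
    rw [(dσ _).hasFDerivAt.fst.snd.norm_sq.fderiv] at b
    exact ⟨by simpa using a, by simpa using b⟩
  refine ⟨fun l => ((σ (jq l)).1, tg G (σ (jq l))), ⟨sΛ.contMDiff.comp jq_smooth, fun l l' h => ?_,
    fun l => (injective_iff_map_eq_zero _).2 fun w hw => ?_,
    fun l => tg_mem G (h1 _ (jq_unit l)).1,
    fun l => G (σ (jq l)), (hG.comp hσ).contMDiff.comp jq_smooth, fun l w => ?_⟩,
    fun q y hq hD hc => ?_, ?_, hU, hN⟩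
  · obtain ⟨a1, a2, a3, a4⟩ := h1 _ (jq_unit l)
    obtain ⟨b1, b2, b3, b4⟩ := h1 _ (jq_unit l')
    obtain ⟨e1, e2⟩ : (σ (jq l)).1 = (σ (jq l')).1 ∧ tg G (σ (jq l)) = tg G (σ (jq l')) :=
      Prod.ext_iff.1 h
    have e0 : ((σ (jq l)).1, (σ (jq l')).2) = σ (jq l') := by rw [e1]
    have e3 : (σ (jq l)).2 = (σ (jq l')).2 := hU _ _ _ a1 a2 (e0 ▸ b2) a3 (e0 ▸ b3) fun v hv => by
      rw [e0, tg_cov G (σ (jq l)) v hv, tg_cov G (σ (jq l')) v (e1 ▸ hv), e2]
    have e4 : jq l = jq l' := by rw [← a4, ← b4, Prod.ext e1 e3]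
    exact Prod.ext (Subtype.ext (congrArg Prod.fst e4)) (Subtype.ext (congrArg Prod.snd e4))
  · obtain ⟨a1, a2, a3, -⟩ := h1 _ (jq_unit l)
    have dt := (tg_smooth hG).differentiable (by simp)
    have dd : Differentiable ℝ (fderiv ℝ G) :=
      (hG.fderiv_right (m := ∞) (by simp)).differentiable (by simp)
    have hw' := (DFunLike.congr_fun ((dσ (jq l)).hasFDerivAt.fst.prodMk
      ((dt _).hasFDerivAt.comp _ (dσ _).hasFDerivAt)).fderiv (dj l w)).symm.trans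
        ((mf (sΛ.differentiable (by simp)) l w).symm.trans hw)
    have e1 : (fderiv ℝ σ (jq l) (dj l w)).1 = 0 := congrArg Prod.fst hw'
    have e2 : fderiv ℝ (tg G) (σ (jq l)) (fderiv ℝ σ (jq l) (dj l w)) = 0 := congrArg Prod.snd hw'
    have e0 : fderiv ℝ σ (jq l) (dj l w) = (0, (fderiv ℝ σ (jq l) (dj l w)).2) := by rw [← e1]
    have e3 : (fderiv ℝ σ (jq l) (dj l w)).2 = 0 := hN _ _ _ a1 a2 a3 fun v e hv => by
      have a := mf_eq ((dd.comp dσ).clm_apply (differentiable_const (0, e)))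
        (differentiable_const 0) (fun l hl => (h1 l hl).2.2.1 e) l w
      rw [(((dd _).hasFDerivAt.comp _ (dσ _).hasFDerivAt).clm_apply
        (hasFDerivAt_const (0, e) _)).fderiv] at a
      rw [split, d2_tan hG hv (by rw [← e0]; exact e2), ← e0]
      simpa using a
    have a := mf_eq (dτ.comp dσ) differentiable_id (fun l hl => (h1 l hl).2.2.2) l w
    rw [fderiv_comp _ (dτ _) (dσ _), fderiv_id, ContinuousLinearMap.comp_apply, e0, e3] at a
    exact dj_zero (a.symm.trans (map_zero _))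
  · have a := mf (dG.comp dσ) l w
    rw [fderiv_comp _ (dG _) (dσ _), ContinuousLinearMap.comp_apply, ← Prod.mk.eta
      (p := fderiv ℝ σ (jq l) (dj l w)), split, (h1 _ (jq_unit l)).2.2.1, add_zero,
      tg_cov G _ _ (tan l w), ← d1, ← d2, ← mf dσ.fst.fst, ← mf dσ.fst.snd] at a
    exact a
  · obtain ⟨l, hl, e⟩ := h2 (q, y) hq hD hc
    refine ⟨tg G (q, y), ⟨(⟨l.1, mem_sphere_zero_iff_norm.2 hl.1⟩,
      ⟨l.2, mem_sphere_zero_iff_norm.2 hl.2⟩), ?_⟩, tg_cov G _⟩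
    simp only [jq, Prod.mk.eta, e]
  · rintro q p ⟨l, hl⟩
    obtain ⟨rfl, rfl⟩ := Prod.ext_iff.1 hl
    exact ⟨(σ (jq l)).2, (h1 _ (jq_unit l)).2.1, (h1 _ (jq_unit l)).2.2.1, tg_cov G _⟩

/-- **block A0** -/
theorem a0 : A0 := a0_of lag par


end Crest.Agent.N218.A
end

-- ▼ part N218/Sk/Fin

/-! Row 218 (helper40): the conditional assembly. -/

set_option autoImplicit false

noncomputable section

namespace Crest.Agent.N218.Sk
open In K

/-- target of block D6 -/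
def D6T : Prop := ∀ (g : GEN) (p : PAN) (s : CST) (J : AI 5), D3.SD5 J →
  Val (i22 g p s J) 21 Pcd half

/-- target of block D3 -/
def D3T : Prop := ∀ (g : GEN) (p : PAN) (s : CST) (I : AI 12) (J : AI 5), D3.SE I → D3.SD5 J →
  P.D3 (i11 g p s I) (i22 g p s J)

/-- target of block D7 -/
def D7T : Prop := ∀ (g : GEN) (p : PAN) (s : CST) (I : AI 12), D3.SE I →
  Val (i11 g p s I) 21 Trv 0

theorem isSph : D7.IsSph e11 :=
  ⟨fun _ => Iff.rfl, fun _ h => Emb.rad_coe h, fun _ _ => rfl⟩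

theorem d7t (hA : Pm.ALG) (a1 : D7.DIM) (a2 : D7.ZER) (a3 : D7.RFL) (a4 : D7.DEG) (a5 : D7.PLH)
    (a6 : D7.ROT) (a7 : D7.LOC) (a8 : D7.SEP) (a9 : D7.NFT) (b1 : D7.CHT) (b2 : D7.ORBJ) : D7T :=
  fun g p s I h => D7.val hA a1 a2 (D7.d7y hA a3 a4 (D7.d7o a5 a6 a7 a8 a9
    (D7.orbt b1 b2 h isSph e11.circ_ok (i11_an g p s I))))

open scoped Manifold ContDiff in
open Crest.GeometryTopology.CotangentSpheres in
theorem fin (hE : INVE) (hD : INVD) (g : GEN) (p : PAN) (s : CST) (h3 : STBT) (hA : Pm.ALG)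
    (he : ENDT) (h7 : D7T) (h6 : D6T) (h4 : P.A4) (hP : P.PIECE) (hd : D3T) :
    ∃ m : ℕ, Odd m ∧ ∃ ι : Sph 9 × Sph m → Amb m, IsExactLagEmbedding m ι ∧
      ¬ ∃ F : ℝ → Sph 9 × Sph m → Amb m,
          ContMDiff (𝓘(ℝ, ℝ).prod ((𝓡 9).prod (𝓡 m))) 𝓘(ℝ, Amb m) ∞
              (fun p : ℝ × (Sph 9 × Sph m) => F p.1 p.2) ∧
            (∀ s, IsExactLagEmbedding m (F s)) ∧ F 0 = zeroSection m ∧
            Set.range (F 1) = Set.range ι := by
  obtain ⟨I, hI⟩ := hE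
  obtain ⟨J, hJ⟩ := hD
  exact mid (i11 g p s I) (i22 g p s J) (ac A.lag) homt h3 hA he (h7 g p s I hI) (h6 g p s J hJ)
    (P.px h4 hP (hd g p s I J hI hJ))

end Crest.Agent.N218.Sk

end
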